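import Vale.Agent.P022K.LF.St2
import Vale.Agent.P022K.RT.Mls
import Vale.Agent.P022K.RT.Pwd
import Vale.Agent.P022K.WB.Ts0
import Vale.Agent.P022K.WB.YNf

/-!
# P022K, block LF: unbounded solutions at a point give the local condition
-/

set_option linter.all false

noncomputable section

namespace Vale.Agent.P022K.LF

open Vale.Agent.P022K.RT
open Vale.Agent.P022K.WB (rel)
open Vale.Agent.P022K.Top (Si)

/-- **row TS** -/
theorem ts : TS := by
  intro p _ O F V _ _ _ _ _ _ _ _ _ _ _ _ _ _ _ Z C D m c e x k E h r hZ wn hC hu hD hm hx hr unb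
  have ex : ∀ j, ∃ L : Z.Pl j, L.P = C.P (C.u j) ∧ (j = k → L.e = E) := fun j => by
    by_cases e : j = k
    · subst e
      exact ⟨.mk' h (hC.u j).2 (C.le _), rfl, fun _ => rfl⟩
    · exact (hZ.ok1.pl_at (hC.u j).1.2.1 (hC.u j).2).imp fun _ a => ⟨a, fun b => (e b).elim⟩
  choose L hL hE using ex
  obtain rfl := hE k rfl
  refine (hD.tp hZ hC (WB.phi_row p _) L hL fun j =>
    (wn j).inj hZ.cc hC.rt (L j) fun e => hu e _ (L j).ovp).ts (Pd.p_max hC)
    (Ideal.Quotient.liftₐ D.I0 x hx) k (rel := fun _ => rel m 1 (some c) e)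
    (WB.aug_rel hm _ _ _) (fun s => (hr s).trans (Matrix.ext fun _ _ => rfl)) fun N =>
      (unb N).imp fun y hy => ⟨⟨fun _ => trivial, fun j _ a q hq => ?_⟩, fun i u hu => ?_, hy.2⟩
  · refine Eq.trans (Finsupp.sum_congr fun _ _ => ?_) (hy.1.1.2 j trivial a q hq)
    exact algebraMap_smul D.A _ _
  · obtain ⟨u, rfl⟩ := Ideal.Quotient.mk_surjective u
    exact hy.1.2 i u hu

end Vale.Agent.P022K.LF
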