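import Vale.Agent.P022K.LF.Wrap
import Vale.Agent.P022K.LF.Ts
import Vale.Agent.P022K.RT.Mid
import Vale.Agent.P022K.RT.Sys
import Vale.Agent.P022K.RT.Pkg
import Vale.Agent.P022K.RT.QbZ
import Vale.Agent.P022K.WB.YSurj

/-!
# P022K, block LF: lifts over `ℚ`, closed
-/

namespace Vale.Agent.P022K.LF

theorem midC : MID := by
  intro p _ O F _ _ _ _ _ _ _ _ _ _ Z ρ r₀ P V C D φ₀ hZ hQ e hC hD h₀
  obtain ⟨L₀⟩ := hQ.lc (RT.lpo p) RT.lp2 (hQ.ov p hZ.mem)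
  obtain ⟨δ, J, h1, h2, h3⟩ := RT.mid RT.qb hZ hQ e hC hD h₀ L₀
  refine ⟨L₀, δ, J, h1, h2, fun J₀ a1 a2 a3 a4 a5 a6 => ?_⟩
  obtain ⟨W, i1, i2, i3, i4, i5, i6, r, b1, b2, b3, b4, -⟩ := h3 J₀ a1 a2 a3 a4 a5 a6
  exact ⟨W, i1, i2, i3, i4, i5, i6, r, b1, b2, b3, b4⟩

theorem lfs_tt (tt : TT) : RT.LFS :=
  lfs_of RT.sys RT.pkg (fun p _ => WB.surj p _) (fun p _ => WB.phi_row p _) midC ts tt

end Vale.Agent.P022K.LF
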