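import Vale.Agent.P022K.LF.St2
import Vale.Agent.P022K.RT.Trq
import Vale.Agent.P022K.RT.Mls
import Vale.Agent.P022K.RT.Gir
import Vale.Agent.P022K.RT.Gir2
import Vale.Agent.P022K.WB.YSurj
import Vale.Agent.P022K.WB.YNf

/-!
# P022K, block LF: row TT
-/

set_option linter.all false

noncomputable section

namespace Vale.Agent.P022K.LF

open Vale.Agent.P022K.RT
open Vale.Agent.P022K.WB (SURJ PHI)
open Vale.Agent.P022K.FI (CS)

/-- **row TT** -/
theorem tt_of (rw : ∀ (p : ℕ) [Fact p.Prime], WB.R1.Rows p (CS p))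
    (hS : ∀ (p : ℕ) [Fact p.Prime], SURJ p (CS p)) (hF : ∀ (p : ℕ) [Fact p.Prime], PHI p (CS p))
    (hG : GIR) (hG2 : GIR2) : TT := by
  intro p _ O F V _ _ _ _ _ _ _ _ _ _ _ _ _ _ _ Z C D η J m c e x E h r hZ wn hC hu hD hη sup hx
    hr loc N
  obtain ⟨y, y1, y2⟩ := hD.trq hZ hC (rw p) (hS p) (hF p)
    (fun k => Top.Si.Pl.mk' (h k) (hC.u k).2 (C.le _)) (fun _ => rfl)
    (fun k => (wn k).inj hZ.cc hC.rt _ fun e => hu e _ (hC.u k).1) (hD.th_ak hη.1)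
    (fun k m => (Pd.com_thY D.M hη.1 fun y _ => (D.M.com _ m _).symm).symm) sup.le
    (fun k => (sup.good hC _).1) (sup.irr hG hG2 hC hu)
    (fun 𝔮 a b c o ho => (sup.unb 𝔮 a b c ∅ (fun _ h => h.elim) o ho).imp fun v hv =>
      ⟨hv.1.1, hv.2⟩) x hx hr loc N
  refine ⟨y, ⟨⟨fun _ => trivial, fun k _ a q hq => ?_⟩,
    fun a => WB.R1.mem_Kl.1 (y1.1 a).2⟩, fun a => (y1.1 a).1, y2⟩
  rw [← y1.2 k trivial a q hq]
  exact Finsupp.sum_congr fun q _ => by rw [algebraMap_smul]; rfl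

theorem tt : TT :=
  tt_of (fun p _ => WB.r1_rows p _) (fun p _ => WB.surj p _) (fun p _ => WB.phi_row p _) gir gir2

end Vale.Agent.P022K.LF
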