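import Vale.Agent.P022K.LF.All2
import Vale.Agent.P022K.LF.Tt

/-!
# P022K, block LF: lifts over `ℚ`, no hypotheses
-/

namespace Vale.Agent.P022K.LF

theorem lfs : RT.LFS := lfs_tt tt

end Vale.Agent.P022K.LF
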