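import Vale.Agent.P022K.WB.Pat

/-!
# P022K, block LF: change of the coefficient ring
-/

set_option linter.all false

noncomputable section

namespace Vale.Agent.P022K.LF

open Matrix Vale.Agent.P022K.WB

theorem ex_lam (A Ω : Type) [CommRing A] [IsDomain A] [Field Ω] [Algebra A Ω] [FaithfulSMul A Ω]
    (T : Submodule A Ω) (hT : T.FG) : ∃ (μ : T →ₗ[A] A) (a : A), a ≠ 0 ∧
      ∀ (b : A) (t : T), (t : Ω) = algebraMap A Ω b → μ t = b * a := by
  let K := FractionRing A
  letI : Algebra K Ω := FractionRing.liftAlgebra A Ω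
  haveI : IsScalarTower A K Ω := FractionRing.isScalarTower_liftAlgebra A Ω
  obtain ⟨l, hl⟩ := (Algebra.linearMap K Ω).exists_leftInverse_of_injective
    (LinearMap.ker_eq_bot.2 (algebraMap K Ω).injective)
  obtain ⟨s, rfl⟩ := hT
  obtain ⟨b, hb⟩ := IsLocalization.exist_integer_multiples (nonZeroDivisors A) s l
  have inj : Function.Injective (Algebra.linearMap A K) := IsFractionRing.injective A K
  let l' := ((b : A) • l.restrictScalars A).domRestrict (Submodule.span A (s : Set Ω))
  have mem : ∀ t, l' t ∈ LinearMap.range (Algebra.linearMap A K) := fun t =>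
    (Submodule.span_le (p := (LinearMap.range (Algebra.linearMap A K)).comap
      ((b : A) • l.restrictScalars A))).2 (fun x hx => hb x hx) t.2
  refine ⟨(LinearEquiv.ofInjective _ inj).symm.toLinearMap.comp (l'.codRestrict _ mem), b,
    nonZeroDivisors.coe_ne_zero b, fun c t ht => inj ?_⟩
  have h1 : l t = algebraMap A K c := by
    rw [ht, IsScalarTower.algebraMap_apply A K Ω]
    exact LinearMap.congr_fun hl _
  refine (LinearEquiv.ofInjective_symm_apply _ (h := inj) _).trans ?_
  show (b : A) • l t = algebraMap A K (c * b)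
  rw [h1, map_mul, Algebra.smul_def, mul_comm]

/-- a finite extension of domains has a non zero linear form -/
theorem ex_mu (A B : Type) [CommRing A] [IsDomain A] [CommRing B] [IsDomain B] [Algebra A B]
    [FaithfulSMul A B] [Module.Finite A B] : ∃ μ : B →ₗ[A] A, μ 1 ≠ 0 := by
  let j := (IsScalarTower.toAlgHom A B (FractionRing B)).toLinearMap
  obtain ⟨μ, a, h, k⟩ := ex_lam A (FractionRing B) (LinearMap.range j) (Submodule.fg_range j)
  exact ⟨μ.comp j.rangeRestrict, by
    rw [LinearMap.comp_apply, k 1 _ (by simp [j]), one_mul]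
    exact h⟩

variable {p : ℕ} [Fact p.Prime]

/-- non zero elements of a domain that is integral over `O` divide a power of `p` -/
theorem dvd_p {O A : Type} [CommRing O] [IsDomain O] [IsDiscreteValuationRing O] [CommRing A]
    [IsDomain A] [Algebra O A] [Algebra.IsIntegral O A] {q : O} (hq : ¬ IsUnit q) {a : A}
    (ha : a ≠ 0) : ∃ k : ℕ, a ∣ algebraMap O A q ^ k := by
  have h := Ideal.comap_ne_bot_of_integral_mem (R := O) ha (Ideal.mem_span_singleton_self a)
    (Algebra.IsIntegral.isIntegral a)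
  obtain ⟨o, h1, h2⟩ := (Submodule.ne_bot_iff _).1 h
  obtain ⟨k, hk⟩ := dvd_pow_p hq h2
  exact ⟨k, (Ideal.mem_span_singleton.1 h1).trans (map_pow (algebraMap O A) q k ▸ map_dvd _ hk)⟩

variable {C : Type} [NontriviallyNormedField C] [IsUltrametricDist C]
  [CharZero C] {ψ : ℚ_[p] → C} {Γ : Type} [Group Γ] {act : Γ →* Iso C} {χ : Γ →* ℤ_[p]ˣ}
  {ok : Og ψ act χ}

/-- **the local condition depends only on the isomorphism class over a big field** -/
theorem loc_tr {O A B Ω I : Type} [CommRing O] [CommRing A] [IsDomain A] [CommRing B] [Field Ω]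
    [Algebra O A] [Algebra O B] [Algebra O Ω] [Module.Finite O B] (i : A →ₐ[O] Ω)
    (inj : Function.Injective i) (j : B →ₐ[O] Ω) (hp : ∀ a : A, a ≠ 0 → ∃ k : ℕ, a ∣ (p : A) ^ k)
    {r : Γ →* Matrix (Fin 2) (Fin 2) A} {r' : Γ →* Matrix (Fin 2) (Fin 2) B}
    {c c' : Matrix (Fin 2) (Fin 2) Ω} (e : c * c' = 1)
    (h : ∀ s, (r' s).map j = c' * (r s).map i * c) {rl : Set (G2 p × I →₀ O)}
    (H : Loc ok (mv r) (smf (algebraMap O A)) rl) :
    Loc ok (mv r') (smf (algebraMap O B)) rl := by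
  classical
  letI : Algebra A Ω := i.toRingHom.toAlgebra
  haveI : IsScalarTower O A Ω := IsScalarTower.of_algebraMap_eq fun o => (i.commutes o).symm
  haveI : FaithfulSMul A Ω := (faithfulSMul_iff_algebraMap_injective A Ω).2 inj
  obtain ⟨s, hs⟩ := Module.Finite.fg_top (R := O) (M := B)
  let T : Submodule A Ω := Submodule.span A (Set.range fun q : (Fin 2 × Fin 2) × (Fin 2 × Fin 2) × s =>
    c' q.1.1 q.1.2 * (c q.2.1.1 q.2.1.2 * j q.2.2))
  obtain ⟨μ, a, a0, ha⟩ := ex_lam A Ω T (Submodule.fg_span (Set.finite_range _))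
  have m1 : ∀ l k x y (b : B), c' l k * (c x y * j b) ∈ T := fun l k x y b => by
    have hb : b ∈ Submodule.span O (s : Set B) := hs ▸ Submodule.mem_top
    induction hb using Submodule.span_induction with
    | mem b hb => exact Submodule.subset_span ⟨((l, k), (x, y), ⟨b, hb⟩), rfl⟩
    | zero => simp
    | add b b' _ _ h1 h2 => simpa only [map_add, mul_add] using add_mem h1 h2
    | smul o b _ h1 =>
      simpa only [map_smul, mul_smul_comm] using T.smul_of_tower_mem o h1
  let g : Fin 2 → Fin 2 → Fin 2 → (Fin 2 → B) → Ω := fun l k x v => c' l k * (c *ᵥ (j ∘ v)) x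
  have m2 : ∀ l k x v, g l k x v ∈ T := fun l k x v => by
    simp only [g, mulVec, dotProduct, Finset.mul_sum]
    exact sum_mem fun y _ => m1 l k x y _
  obtain ⟨n, d, hd⟩ := hp a a0
  refine H.of_map (J := A × Fin 2 × Fin 2) (fun q =>
    { toFun := fun v x => q.1 * μ ⟨_, m2 q.2.1 q.2.2 x v⟩
      map_zero' := funext fun x => ?_
      map_add' := fun v w => funext fun x => ?_ }) (fun q σ v => funext fun x => ?_)
    (fun q o _ v => funext fun x => ?_) n fun w => ?_
  · rw [show (⟨_, m2 q.2.1 q.2.2 x 0⟩ : T) = 0 from Subtype.ext (by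
      simp [g, mulVec, dotProduct]), map_zero, mul_zero, Pi.zero_apply]
  · rw [Pi.add_apply, ← mul_add, ← map_add]
    congr 2
    exact Subtype.ext (by simp [g, mulVec, dotProduct, mul_add]; ring)
  · have h1 : c *ᵥ (j ∘ (r' σ *ᵥ v)) = (r σ).map i *ᵥ (c *ᵥ (j ∘ v)) := by
      rw [show j ∘ (r' σ *ᵥ v) = (r' σ).map j *ᵥ (j ∘ v) from
        funext fun y => RingHom.map_mulVec (j : B →+* Ω) _ _ y, h, mulVec_mulVec, mulVec_mulVec,
        ← mul_assoc, ← mul_assoc, e, one_mul]
    show q.1 * μ ⟨g _ _ x (r' σ *ᵥ v), _⟩ = ∑ y, r σ x y * (q.1 * μ ⟨_, m2 q.2.1 q.2.2 y v⟩)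
    simp only [mul_left_comm (r σ x _), ← Finset.mul_sum, ← smul_eq_mul (r σ x _), ← map_smul,
      ← map_sum]
    congr 2
    refine Subtype.ext ?_
    simp only [g, h1, Submodule.coe_sum, Submodule.coe_smul]
    rw [mulVec, dotProduct, Finset.mul_sum]
    exact Finset.sum_congr rfl fun y _ => mul_left_comm _ _ _
  · show q.1 * μ ⟨g _ _ x (algebraMap O B o • v), _⟩ =
      algebraMap O A o * (q.1 * μ ⟨_, m2 q.2.1 q.2.2 x v⟩)
    rw [mul_left_comm, ← smul_eq_mul (algebraMap O A o), ← map_smul]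
    congr 2
    refine Subtype.ext ?_
    simp [g, mulVec, dotProduct, Algebra.smul_def, ← IsScalarTower.algebraMap_apply]
    ring
  · have : p ^ n • w = ∑ k, ∑ l, fun x => (d * w k) * μ ⟨_, m2 l k x (Pi.single l 1)⟩ := by
      funext x
      simp only [Finset.sum_apply, ← Finset.mul_sum, ← map_sum]
      have h2 : ∀ k, μ (∑ l, ⟨_, m2 l k x (Pi.single l 1)⟩) = (1 : Matrix _ _ A) x k * a :=
        fun k => ha _ _ (by
          have h3 : ∀ l, g l k x (Pi.single l 1) = c x l * c' l k := fun l => by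
            simp only [g, mulVec, dotProduct, Function.comp_apply, Pi.single_apply, apply_ite j,
              map_one, map_zero, mul_ite, mul_one, mul_zero, Finset.sum_ite_eq', Finset.mem_univ,
              if_true, mul_comm]
          rw [Submodule.coe_sum, Finset.sum_congr rfl fun l _ => h3 l, ← mul_apply, e, one_apply,
            one_apply, apply_ite (algebraMap A Ω), map_one, map_zero])
      simp only [h2, one_apply]
      simp [hd, mul_comm, mul_assoc, mul_left_comm]
    rw [this]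
    exact sum_mem fun k _ => sum_mem fun l _ =>
      AddSubgroup.mem_iSup_of_mem (d * w k, l, k) ⟨Pi.single l 1, rfl⟩

variable (ok) in
/-- the local condition for matrices over a big field -/
def LocO {O Ω I : Type} [CommRing O] [Field Ω] [Algebra O Ω] (r : Γ → Matrix (Fin 2) (Fin 2) Ω)
    (rl : Set (G2 p × I →₀ O)) : Prop :=
  ∃ (A : Type) (_ : CommRing A) (_ : IsDomain A) (_ : Algebra O A) (_ : Module.Finite O A)
    (i : A →ₐ[O] Ω) (r' : Γ →* Matrix (Fin 2) (Fin 2) A), Function.Injective i ∧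
    (∀ s, (r' s).map i = r s) ∧ Loc ok (mv r') (smf (algebraMap O A)) rl

variable {O Ω I R : Type} [CommRing O] [Field Ω] [Algebra O Ω] [CommRing R] [Algebra O R]
  {r : Γ → Matrix (Fin 2) (Fin 2) Ω} {rl : Set (G2 p × I →₀ O)} {c c' : Matrix (Fin 2) (Fin 2) Ω}

theorem map_ker (x : R →ₐ[O] Ω) (m : Matrix (Fin 2) (Fin 2) R) :
    (m.map (Ideal.Quotient.mkₐ O (RingHom.ker x))).map (Ideal.kerLiftAlg x) = m.map x := rfl

/-- the representation over the ring of values of a point -/
theorem ex_hom (x : R →ₐ[O] Ω) (f : Γ → Matrix (Fin 2) (Fin 2) R) (h1 : (f 1).map x = 1)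
    (hm : ∀ s t, (f (s * t)).map x = (f s).map x * (f t).map x) :
    ∃ r : Γ →* Matrix (Fin 2) (Fin 2) (R ⧸ RingHom.ker x),
      ∀ s, r s = (f s).map (Ideal.Quotient.mkₐ O _) := by
  have inj := Matrix.map_injective (m := Fin 2) (n := Fin 2) (Ideal.kerLiftAlg_injective x)
  exact ⟨⟨⟨fun s => (f s).map (Ideal.Quotient.mkₐ O _), inj (h1.trans
    (Matrix.map_one _ (map_zero _) (map_one _)).symm)⟩, fun s t => inj ((hm s t).trans
      (Matrix.map_mul (f := Ideal.kerLiftAlg x) (L := (f s).map (Ideal.Quotient.mkₐ O _))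
        (M := (f t).map (Ideal.Quotient.mkₐ O _))).symm)⟩, fun _ => rfl⟩

theorem LocO.one (H : LocO ok r rl) : r 1 = 1 := by
  obtain ⟨A, _, _, _, _, i, r₁, -, h, -⟩ := H
  rw [← h, map_one, Matrix.map_one _ (map_zero _) (map_one _)]

theorem LocO.mul (H : LocO ok r rl) (s t : Γ) : r (s * t) = r s * r t := by
  obtain ⟨A, _, _, _, _, i, r₁, -, h, -⟩ := H
  rw [← h, ← h, ← h, map_mul, Matrix.map_mul (f := i)]

variable [IsDomain O] [IsDiscreteValuationRing O]

theorem LocO.out (H : LocO ok r rl) (hp : ¬ IsUnit (p : O)) {B : Type} [CommRing B] [Algebra O B]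
    [Module.Finite O B] (j : B →ₐ[O] Ω) {r' : Γ →* Matrix (Fin 2) (Fin 2) B} (e : c * c' = 1)
    (h : ∀ s, (r' s).map j = c' * r s * c) : Loc ok (mv r') (smf (algebraMap O B)) rl := by
  obtain ⟨A, _, _, _, _, i, r₁, h1, h2, h3⟩ := H
  exact loc_tr i h1 j (fun a ha => by simpa using dvd_p hp ha) e (fun s => by rw [h, h2]) h3

theorem LocO.tr (H : LocO ok r rl) (hp : ¬ IsUnit (p : O)) (x : R →ₐ[O] Ω)
    (fin : Module.Finite O (R ⧸ RingHom.ker x)) {f : Γ → Matrix (Fin 2) (Fin 2) R}
    (e : c * c' = 1) (h : ∀ s, (f s).map x = c' * r s * c) :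
    LocO ok (fun s => (f s).map x) rl := by
  have := RingHom.ker_isPrime x
  obtain ⟨r', h'⟩ := ex_hom x f (by rw [h, H.one, mul_one, mul_eq_one_comm.1 e]) fun s t => by
    rw [h, h, h, H.mul, show c' * r s * c * (c' * r t * c) = c' * (r s * (c * c') * r t) * c by
      simp only [mul_assoc], e, mul_one]
  have k : ∀ s, (r' s).map (Ideal.kerLiftAlg x) = (f s).map x := fun s => by rw [h', map_ker]
  exact ⟨_, _, inferInstance, _, fin, _, r', Ideal.kerLiftAlg_injective x, k,
    H.out hp _ e fun s => (k s).trans (h s)⟩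

/-- the local condition over a coefficient ring -/
theorem locR_of [Algebra ℤ_[p] O] {W : Type} [CommRing W] [Algebra O W] [Algebra ℤ_[p] W]
    [IsScalarTower ℤ_[p] O W] (inj : Function.Injective (algebraMap O W))
    {r : Γ →* Matrix (Fin 2) (Fin 2) W} {m : ℕ} {c : GL (Fin 2) (ZMod p) → O} {e : O} (he : e ≠ 0)
    (H : Loc ok (mv r) (smf (algebraMap O W)) (rel m 1 (some c) e)) :
    LocR ok r m (some fun g => algebraMap O W (c g)) := by
  refine ⟨1, algebraMap O W e, (map_ne_zero_iff _ inj).2 he, fun _ => rfl,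
    H.of_rel (Function.invFun (algebraMap O W)) fun r' hr' => ?_⟩
  obtain ⟨r, h5, rfl⟩ := (rel_map (c := some c) (IsScalarTower.toAlgHom ℤ_[p] O W)).1 hr'
  exact ⟨r, h5, (Finsupp.support_mapRange_of_injective _ r inj).symm,
    fun q _ => ⟨Function.leftInverse_invFun inj _, rfl⟩⟩

end Vale.Agent.P022K.LF
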