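import Vale.Agent.P022K.LF.HmfA
import Vale.Agent.P022K.RT.Pate1
import Vale.Agent.P022K.RT.Dual

/-!
# P022K, block LF, row HMF
-/

set_option linter.all false

noncomputable section

namespace Vale.Agent.P022K.LF

open Matrix Function Sh WB RT IsLocalRing MvPowerSeries
open Vale.Agent.P022D.Core (PS)

namespace Hmf

variable {R N X Γ : Type} [CommRing R] [AddCommGroup N] [Module R N] [AddCommGroup X] [Module R X]
  [Group Γ] {Φ : N →ₗ[R] X}

theorem ex_end (inj : Injective Φ) (f : Module.End R X) (hf : ∀ x, ∃ y, Φ y = f (Φ x)) :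
    ∃ f' : Module.End R N, ∀ x, Φ (f' x) = f (Φ x) := by
  choose g hg using hf
  exact ⟨⟨⟨g, fun a b => inj (by simp [hg])⟩, fun a b => inj (by simp [hg])⟩, hg⟩

theorem ex_hom (inj : Injective Φ) (s : Γ →* Module.End R X) (hs : ∀ g x, ∃ y, Φ y = s g (Φ x)) :
    ∃ s' : Γ →* Module.End R N, ∀ g x, Φ (s' g x) = s g (Φ x) := by
  choose f hf using fun g => ex_end inj (s g) (hs g)
  exact ⟨⟨⟨f, LinearMap.ext fun x => inj (by simp [hf])⟩,
    fun a b => LinearMap.ext fun x => inj (by simp [hf])⟩, hf⟩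

/-- the stabiliser of a vector -/
def stb (s : Γ →* Module.End R X) (z : X) : Subgroup Γ where
  carrier := {g | s g z = z}
  one_mem' := by simp
  mul_mem' {a b} (ha : s a z = z) (hb : s b z = z) := by simp [ha, hb]
  inv_mem' {a} (ha : s a z = z) := show s a⁻¹ z = z by
    conv_lhs => rw [← ha, ← Module.End.mul_apply, ← map_mul, inv_mul_cancel, map_one]
    rfl

/-- the action on families -/
def cl (R X ι : Type) [CommRing R] [AddCommGroup X] [Module R X] :
    Module.End R X →* Module.End R (ι → X) where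
  toFun f := f.compLeft ι
  map_one' := rfl
  map_mul' _ _ := rfl

theorem zg_all {a : ℕ} (A : Subgroup (Zr a)) (h : ∀ s, zg s ∈ A) (z : Zr a) : z ∈ A := by
  have e : z = ∏ s, zg s ^ z.toAdd s := by
    apply Multiplicative.toAdd.injective
    funext t
    simp [zg, toAdd_prod, Finset.sum_apply, Pi.single_apply]
  rw [e]
  exact prod_mem fun s _ => zpow_mem (h s) _

section

variable {p : ℕ} [hp' : Fact p.Prime] {O J M : Type} [CommRing O] [Algebra ℤ_[p] O] [Algebra O R]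
  [Fintype J] [DecidableEq J] [AddCommGroup M] [Module O M] [Module R M] [IsScalarTower O R M]
  {r b m : ℕ} (a : (J → G2 p) × Zr r →* Module.End R M)

/-- the action of the integral matrices -/
def aK : (J → GL (Fin 2) ℤ_[p]) →* Module.End R M := a.comp ((MonoidHom.inl _ _).comp
  ((GeneralLinearGroup.map (algebraMap ℤ_[p] ℚ_[p])).compLeft J))

variable (p) in
/-- level `p ^ 2` -/
abbrev K2 : Subgroup (GL (Fin 2) ℤ_[p]) :=
  (GeneralLinearGroup.map (n := Fin 2) (PadicInt.toZModPow (p := p) (0 + 2))).ker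

theorem aK_com (z : Zr r) (y : J → GL (Fin 2) ℤ_[p]) : Commute (a (1, z)) (aK a y) :=
  Commute.map (f := a) (Prod.ext (by simp) (by simp))

theorem ex_N [IsDomain O] [IsDiscreteValuationRing O] [PL.Cf O] (hp : (p : O) ∈ maximalIdeal O)
    (cof : Cof O (NP (NG p 0 J) p r)
      (a.comp (((Kn p (0 + 2)).subtype.compLeft J).prodMap (MonoidHom.id _))) b) (m : ℕ) :
    ∃ (N : Type) (_ : AddCommGroup N) (_ : Module O N) (_ : Module R N) (_ : IsScalarTower O R N)
      (Φ : N →ₗ[R] (J → Fin (2 * m + 1)) → M) (ρ' : Zr r →* Module.End R N) (b' : ℕ),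
      Injective Φ ∧ (∀ z, (∃ x, Φ x = z) ↔
        ∀ y, (∀ k, y k ∈ K2 p) → tw (wt p O J m) (aK a) y z = z) ∧
      (∀ z x i, Φ (ρ' z x) i = a (1, z) (Φ x i)) ∧ Cof O (NZ p r) ρ' b' := by
  let ε := Fintype.equivFin (J → Fin (2 * m + 1))
  let T := wt p O J m
  let ℓ := (lz (p := p) (0 + 2)).compLeft J
  let τ : (J → Kn p (0 + 2)) →* Matrix _ _ O :=
    { toFun := fun g => (T (ℓ g)⁻¹)ᵀ.submatrix ε.symm ε.symm
      map_one' := by simp
      map_mul' := fun g h => by simp [transpose_mul, submatrix_mul_equiv] }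
  let ρ := a.comp (((Kn p (0 + 2)).subtype.compLeft J).prodMap (MonoidHom.id _))
  let N := Hm O τ (ρ.comp (MonoidHom.inl _ (Zr r)))
  let Φ : N →ₗ[R] (J → Fin (2 * m + 1)) → M := (LinearMap.funLeft _ M ε).comp N.subtype
  have inj : Injective Φ :=
    (LinearMap.funLeft_injective_of_surjective R M ε ε.surjective).comp Subtype.val_injective
  have hR : ∀ z, (∃ x, Φ x = z) ↔ ∀ y, (∀ k, y k ∈ K2 p) → tw T (aK a) y z = z := fun z => by
    have h1 : ∀ g v, aK a (ℓ g) v = ρ (g, 1) v := fun g v =>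
      congrArg (fun x => a (x, 1) v) (funext fun k => jK_lz (g k))
    constructor
    · rintro ⟨x, rfl⟩ y hy
      obtain ⟨g, rfl⟩ : ∃ g, ℓ g = y :=
        ⟨fun k => ⟨_, mem_Kn_iff.2 ⟨y k, hy k, rfl⟩⟩, funext fun k => jK_inj (jK_lz _)⟩
      refine tw_fix.2 fun i => ((h1 g _).trans (x.2 g (ε i))).trans ?_
      rw [← ε.sum_comp]
      exact Finset.sum_congr rfl fun j _ => by simp [τ, Φ]
    · refine fun h => ⟨⟨fun i => z (ε.symm i), fun g i => ?_⟩, funext fun i => by simp [Φ]⟩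
      refine ((h1 g _).symm.trans (tw_fix.1 (h (ℓ g) fun k => red_lz (g k)) _)).trans ?_
      rw [← ε.symm.sum_comp]
      rfl
  obtain ⟨ρ', hρ⟩ := ex_hom inj ((cl _ M _).comp (a.comp (MonoidHom.inr _ _)))
    fun z x => (hR _).2 fun y hy => (tw_com (aK_com a z) _ _).trans
      (congrArg _ ((hR _).1 ⟨x, rfl⟩ y hy))
  replace hρ : ∀ z x i, Φ (ρ' z x) i = a (1, z) (Φ x i) := fun z x i => congrFun (hρ z x) i
  exact ⟨N, inferInstance, inferInstance, inferInstance, inferInstance, Φ, ρ', _, inj, hR, hρ,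
    homf O _ _ M p _ r b _ _ _ ρ τ hp (unf_GP (Fintype.equivFin (J × Fin 3)).symm r) cof
    (fun j => ⟨j, fun g hg i i' => by
      have := wt_cts hp m j (inv_mem hg) (ε.symm i') (ε.symm i)
      rw [map_inv] at this
      simpa [τ, one_apply, eq_comm] using this⟩) ρ' fun z x i => by
      simpa [Φ, ρ] using hρ z x (ε.symm i)⟩

variable {a} [Module O N] [IsScalarTower O R N] {Φ : N →ₗ[R] (J → Fin (2 * m + 1)) → M}

theorem ex_th [IsDomain O] (hp0 : (p : O) ≠ 0) {c : GL (Fin 2) (ZMod p) → O} {e : O}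
    (hc : Idc c e) {α : J → Representation O (G2 p) M}
    (hα : ∀ k g v, α k g v = a (Pi.mulSingle k g, 1) v) (inj : Injective Φ)
    (hR : ∀ z, (∃ x, Φ x = z) ↔ ∀ y, (∀ k, y k ∈ K2 p) → tw (wt p O J m) (aK a) y z = z) :
    ∃ (θ : Module.End R N) (w : O), w ≠ 0 ∧ (∀ x, Φ (θ x) ∈ Sol α m c e) ∧
      (∀ z ∈ Sol α m c e, ∃ x, Φ x = z) ∧ (∀ x, Φ x ∈ Sol α m c e → θ x = w • x) ∧
      ∀ (f : Module.End R M) (f' : Module.End R N), (∀ y, Commute f (aK a y)) →
        (∀ x i, Φ (f' x) i = f (Φ x i)) → Commute f' θ := by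
  have hA : ∀ k y v, α k (jK y) v = aK a (Pi.mulSingle k y) v := fun k y v => (hα k _ v).trans
    (congrArg (fun x => a (x, 1) v) (funext fun k' =>
      (Pi.apply_mulSingle (fun _ y => jK y) (fun _ => map_one _) k y k').symm))
  obtain ⟨t, ht⟩ := ex_hom inj (tw (wt p O J m) (aK a)) fun y x => (hR _).2 fun y' hy => by
    have := (hR _).1 ⟨x, rfl⟩ (y⁻¹ * y' * y) fun k => by
      simpa using (inferInstance : (K2 p).Normal).conj_mem _ (hy k) (y k)⁻¹
    conv_rhs => rw [← this, ← Module.End.mul_apply, ← map_mul, ← mul_assoc, mul_inv_cancel_left,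
      map_mul, Module.End.mul_apply]
  obtain ⟨θ, w, hw, h1, h2, h3⟩ := all lfK_spec hc.conv (K2 p) (fun n hn e => by
      obtain ⟨k, d, hd⟩ := dvd_pow_p (A := ℤ_[p]) (q := p) PadicInt.irreducible_p.not_isUnit
        (Nat.cast_ne_zero.2 hn)
      have := congrArg (algebraMap ℤ_[p] O) hd
      rw [map_pow, map_natCast, map_mul, map_natCast, e, zero_mul] at this
      exact pow_ne_zero _ hp0 this) hc.ne
    (fun k => t.comp (MonoidHom.mulSingle (fun _ => GL (Fin 2) ℤ_[p]) k))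
    (fun k y hy => LinearMap.ext fun x => inj ((ht _ x).trans ((hR _).1 ⟨x, rfl⟩ _ fun k' => by
      by_cases e : k' = k
      · simpa [e] using hy
      · simp [e])))
    fun k k' e g g' => (Pi.mulSingle_commute (f := fun _ => GL (Fin 2) ℤ_[p]) e g g').map t
  have hS : ∀ x, Φ x ∈ Sol α m c e ↔ ∀ k, Ty (GeneralLinearGroup.map PadicInt.toZMod) lfK c e
      (t.comp (MonoidHom.mulSingle (fun _ => GL (Fin 2) ℤ_[p]) k)) x := fun x => by
    simp only [mem_Sol hA, Ty, MonoidHom.comp_apply, ← inj.eq_iff, map_sum,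
      LinearMap.map_smul_of_tower, ht]
  refine ⟨θ, w, hw, fun x => (hS _).2 (h1 x), fun z hz => (hR z).2 fun y hy =>
    Subgroup.pi_mem_of_mulSingle_mem (H := stb (tw (wt p O J m) (aK a)) z) y fun k =>
      ((mem_Sol hA).1 hz k).1 _ (red_iff.2 ((map_one_iff _).2 fun i j => ?_)),
    fun x hx => h2 x ((hS x).1 hx), fun f f' hf k => h3 _ fun v g => LinearMap.ext fun x => inj ?_⟩
  · have := (map_one_iff _).1 (hy k) i j
    rw [PadicInt.ker_toZModPow] at this ⊢
    exact Ideal.span_singleton_le_span_singleton.2 (pow_dvd_pow _ (by omega)) this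
  · have k' : ∀ x, Φ (f' x) = f.compLeft _ (Φ x) := fun x => funext (k x)
    simp only [Module.End.mul_apply, MonoidHom.comp_apply, k', ht, tw_com hf]

end

end Hmf

open Hmf in
theorem hmf : HMF := by
  intro p hp' O σ J M _ _ _ hO _ _ _ _ _ _ _ _ r b m a α qa qb c e θ hp hp0 hc hα cof mem quad com
  obtain ⟨N, _, _, _, _, Φ, ρ', b', inj, hR, hρ, hC⟩ := ex_N a hp cof m
  obtain ⟨θc, w, hw, h1, hS, h2, h3⟩ := ex_th hp0 hc hα inj hR
  have ex : ∀ f : Module.End (PS O σ) M, (∀ x, Commute f (a x)) → ∃ f' : Module.End (PS O σ) N,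
      (∀ x i, Φ (f' x) i = f (Φ x i)) ∧ Commute f' θc ∧ ∀ z, Commute f' (ρ' z) := fun f h => by
    have h' : ∀ y, Commute f (aK a y) := fun y => h _
    obtain ⟨f', k⟩ := ex_end inj (f.compLeft _) fun x => (hR _).2 fun y hy =>
      (tw_com h' _ _).trans (congrArg _ ((hR _).1 ⟨x, rfl⟩ y hy))
    have k' : ∀ x i, Φ (f' x) i = f (Φ x i) := fun x i => congrFun (k x) i
    refine ⟨f', k', h3 f f' h' k', fun z => LinearMap.ext fun x => inj (funext fun i => ?_)⟩
    simp only [Module.End.mul_apply, k', hρ]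
    exact LinearMap.congr_fun (h (1, z)).eq _
  obtain ⟨θ', k1, k2, k3⟩ := ex θ com
  have k4 : ∀ z, Commute (θ' * θc) (ρ' z) := fun z =>
    (k3 z).mul_left (h3 _ _ (aK_com a z) (hρ z)).symm
  have hU := Up.unf_Z (r := r) hp'.out.ne_zero
  have hD : Dm O (fun s : Fin 0 ⊕ Fin r => (kP (Fin.elim0 : Fin 0 → _root_.Unit) r s).2) (NZ p r) ρ'
      _ (Empty.elim : Empty → Zr r) qa qb :=
    ⟨hC, fun i => i.elim, mem, fun s => LinearMap.ext fun x => inj (funext fun i => by
      simpa [sq, hρ, kP] using LinearMap.congr_fun (quad s) (Φ x i)),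
    (Pd.lv_fin hU hC 1).subset fun v hv => ⟨fun z _ => zg_all (stb ρ' v) hv.2.1 z, fun o ho => by
      rw [← algebraMap_smul (PS O σ)]
      refine hv.1 _ fun hu => ?_
      rw [pow_one] at ho
      exact ho (by simpa [MvPowerSeries.algebraMap_apply] using hu.map constantCoeff)⟩⟩
  have h4 : ∀ z ∈ Sol α m c e, ∃ x, ∀ i, Φ ((θ' * θc) x) i = w • θ (z i) := fun z hz => by
    obtain ⟨x, rfl⟩ := hS z hz
    exact ⟨x, fun i => by
      rw [Module.End.mul_apply, k1, h2 x hz, Φ.map_smul_of_tower, Pi.smul_apply,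
        θ.map_smul_of_tower]⟩
  have h5 : An (θ' * θc) ≤ Bs O θ (Sol α m c e : Set ((J → Fin (2 * m + 1)) → M)) := fun u hu =>
    ⟨w, hw, fun z hz i => by
      obtain ⟨x, hx⟩ := h4 z hz
      rw [smul_comm, ← hx, ← Pi.smul_apply, ← map_smul, Pd.mem_an.1 hu, map_zero, Pi.zero_apply]⟩
  refine ⟨fun hu => ?_, fun ⟨_, η, d, p1, p2, p3⟩ 𝔮 hq le => ?_⟩
  · obtain ⟨d1, d2⟩ := pate1 dual hp hU hD k4 fun e0 => by
      obtain ⟨z, hz, i, hi⟩ := hu w hw
      obtain ⟨x, hx⟩ := h4 z hz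
      exact hi (by rw [← hx, e0, LinearMap.zero_apply, map_zero, Pi.zero_apply])
    rwa [le_antisymm h5 fun u ⟨o, ho, hu⟩ => d2 o ho u (Pd.mem_an.2 fun x => inj (funext fun i => by
      rw [map_smul, map_zero, Pi.smul_apply, Module.End.mul_apply, k1, mul_smul]
      exact (algebraMap_smul (PS O σ) o _).trans (hu _ (h1 x) i)))] at d1
  · obtain ⟨η', l1, l2, l3⟩ := ex η p1
    obtain ⟨d1, d2, -⟩ := (pate dual O σ _ N p r _ _ _ ρ' qa qb _ hp hU hD
      ⟨k4, η', d * w, l3, mul_ne_zero p2 hw, fun x => inj (funext fun i => by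
        have := LinearMap.congr_fun l2.eq
        have h6 := LinearMap.congr_fun k2.eq
        simp only [Module.End.mul_apply] at this h6 ⊢
        rw [← this, ← h6, h2 _ (h1 x), k1, l1, k1, p3, Φ.map_smul_of_tower, Φ.map_smul_of_tower,
          Pi.smul_apply, Pi.smul_apply, k1, θ.map_smul_of_tower, mul_smul])⟩).2 𝔮 hq
    refine ⟨fun h0 o ho => ?_, d2 (h5.trans le)⟩
    obtain ⟨v, ⟨v1, -⟩, v2⟩ := d1 (h5.trans le) h0 ∅ (fun _ h => h.elim) o ho
    refine ⟨Φ (θc v), ⟨h1 v, fun i u hu => ?_⟩, ?_⟩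
    · rw [← Pi.smul_apply, ← map_smul, ← map_smul, v1 u hu, map_zero, map_zero, Pi.zero_apply]
    · by_contra! hn
      exact v2 (inj (funext fun i => by
        rw [Φ.map_smul_of_tower, Pi.smul_apply, Module.End.mul_apply, k1, hn, map_zero,
          Pi.zero_apply]))

end Vale.Agent.P022K.LF
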