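import Vale.Agent.P022K.LF.St2
import Vale.Agent.P022K.LF.Bc
import Vale.Agent.P022K.LF.Hmf
import Vale.Agent.P022K.RT.Trn
import Vale.Agent.P022K.RT.Tga
import Vale.Agent.P022K.O2.Dvr1

/-!
# P022K, block LF: the prime at `p` of a given weight and type
-/

set_option linter.all false

noncomputable section

namespace Vale.Agent.P022K.LF

open IsLocalRing MvPowerSeries
open scoped Pointwise
open Vale.Agent.P022
open Vale.Agent.P022D.L2b (M2)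
open Vale.Agent.P022D.Core (PS)
open Vale.Agent.P022D.W (dec)
open Vale.Agent.P022E.GW (Ov)
open Vale.Agent.P022K.PL (Cf)
open Vale.Agent.P022K.GW (Id)
open Vale.Agent.P022K.RT
open Vale.Agent.P022K.WB (G2 SlS SlO_map rel Loc ok0 mv smf rs Ab rs_comp dvd_pow_p)
open Vale.Agent.P022K.FI (CS)
open Vale.Agent.P022K.Top (Si Uu)

section bs

variable {O σ M I : Type} [CommRing O] [IsDomain O] [AddCommGroup M] [Module O M]
  [Module (PS O σ) M] [IsScalarTower O (PS O σ) M] {θ : Module.End (PS O σ) M} {S : Set (I → M)}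

theorem C_smul (o : O) (v : M) : (C o : PS O σ) • v = o • v := algebraMap_smul (PS O σ) o v

theorem sat_Bs : Sat (Bs (R := PS O σ) O θ S) := fun o ho u ⟨o', h, k⟩ =>
  ⟨o' * o, mul_ne_zero h ho, fun z hz i => by
    rw [mul_smul, ← C_smul (σ := σ) o, ← mul_smul (C o : PS O σ), k z hz]⟩

theorem uf_of {u : PS O σ} (h : u ∉ Bs O θ S) : Uf O (u • θ) S := fun o ho => by
  by_contra! k
  exact h ⟨o, ho, k⟩

theorem mem_Bs {u v : PS O σ} (h : u * v ∈ Bs O θ S) : v ∈ Bs O (u • θ) S :=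
  h.imp fun o k => ⟨k.1, fun z hz i => by
    rw [LinearMap.smul_apply, ← mul_smul v, mul_comm, k.2 z hz]⟩

theorem Uf.pow [IsDiscreteValuationRing O] {p : ℕ} (hp : (p : O) ≠ 0) (h : Uf O θ S) (N : ℕ) :
    ∃ z ∈ S, p ^ N • z ≠ 0 := by
  obtain ⟨z, h1, i, h2⟩ := h (p ^ N) (pow_ne_zero _ hp)
  refine ⟨z, h1, fun e => h2 ?_⟩
  rw [← Nat.cast_pow, Nat.cast_smul_eq_nsmul, ← map_nsmul, ← Pi.smul_apply, e, Pi.zero_apply,
    map_zero]

end bs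

theorem pt_fin {O σ Ω : Type} [CommRing O] [IsDomain O] [IsDiscreteValuationRing O] [Cf O]
    [Finite σ] [Field Ω] [Algebra O Ω] {x : PS O σ →ₐ[O] Ω} (hx : ∀ u, IsIntegral O (x u)) :
    Module.Finite O (PS O σ ⧸ RingHom.ker x) :=
  O2.D1.fin_quot _ (RingHom.ker_ne_top _) ⟨fun z => by
    obtain ⟨u, rfl⟩ := Ideal.Quotient.mk_surjective z
    exact (isIntegral_algHom_iff (Ideal.kerLiftAlg x) (Ideal.kerLiftAlg_injective x)).1 (hx u)⟩

theorem pt_ff {O R Ω : Type} [CommRing O] [CommRing R] [Algebra O R] [Field Ω] [Algebra O Ω]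
    [FaithfulSMul O Ω] (x : R →ₐ[O] Ω) : FaithfulSMul O (R ⧸ RingHom.ker x) :=
  (faithfulSMul_iff_algebraMap_injective _ _).2 fun a b e =>
    FaithfulSMul.algebraMap_injective O Ω (by
      simpa only [AlgHom.commutes] using congrArg (Ideal.kerLiftAlg x) e)

theorem ker_mk {O R : Type} [CommRing O] [CommRing R] [Algebra O R] (I : Ideal R) :
    RingHom.ker (Ideal.Quotient.mkₐ O I) = I := Ideal.Quotient.mkₐ_ker O I

variable {p : ℕ} [Fact p.Prime] {O F : Type} [CommRing O] [IsDomain O]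
  [IsDiscreteValuationRing O] [Algebra ℤ_[p] O] [Field F] {Z : Si p O} {C : Fr Z F} (D : Pd C)

/-- the action of the groups at `p` and of the patching variables -/
def aa : (Z.J → G2 p) × Zr D.r →* Module.End D.R D.M.Y :=
  D.M.a.comp (D.ψ.prodMap (MonoidHom.id _))

variable {D} [Algebra O F] {m : ℕ} {c : GL (Fin 2) (ZMod p) → O} {e : O}
  {η : MonoidAlgebra O Z.G}

theorem prjA (h : D.Ok) (hη : Z.Ty η) : Prj O (aa D) (D.th η) := by
  obtain ⟨η', c, h2, h3, h4⟩ := h.prj' hη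
  exact ⟨fun g => h.th_psi _ hη.1 _ _, D.th η', c, fun g => h.th_psi _ h2 _ _, h3, h4⟩

theorem So_map {T : Module.End D.R D.M.Y} (hT : ∀ g, Commute T (aa D g))
    {y : (Z.J → Fin (2 * m + 1)) → D.M.Y} (hy : y ∈ So D m c e) :
    (fun a => T (y a)) ∈ So D m c e :=
  ⟨fun _ => trivial, fun k _ a => SlO_map (hy.2 k trivial a) (T.restrictScalars O) fun g _ =>
    LinearMap.congr_fun (hT (Pi.mulSingle k g, 1)).eq _⟩

theorem le_Bs (h : D.Ok) {θ : Module.End D.R D.M.Y} {I : Type} {S : Set (I → D.M.Y)} :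
    D.I0 ≤ Bs O θ S := fun u hu => ⟨1, one_ne_zero, fun z _ i => by rw [h.kil _ u hu, smul_zero]⟩

variable [Cf O] [CharZero O] [CharP F p]

theorem hmfD (hC : C.Ok) (h : D.Ok) (hc : Idc c e) (θ : Module.End D.R D.M.Y)
    (hθ : ∀ x, Commute θ (aa D x)) :
    (Uf O θ (So D m c e) → ((D.r + 1 : ℕ) : WithBot ℕ∞) ≤
      ringKrullDim (D.R ⧸ Bs (R := D.R) O θ (So D m c e))) ∧
    (Prj O (aa D) θ → ∀ 𝔮 : Ideal D.R, 𝔮.IsPrime → Bs O θ (So D m c e) ≤ 𝔮 →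
      ((∀ o, MvPowerSeries.C o ∈ 𝔮 → o = 0) → Uf O θ (So D m c e ∩ Kf _ D.M.Y 𝔮)) ∧
      ((∀ s, ∃ o o', D.qa s - MvPowerSeries.C o ∈ 𝔮 ∧ D.qb s - MvPowerSeries.C o' ∈ 𝔮) →
        Module.Finite O (D.R ⧸ 𝔮))) :=
  hmf p O D.σ Z.J D.M.Y D.r D.b m (aa D) (al D) D.qa D.qb c e θ hC.p_mem
    (Nat.cast_ne_zero.2 (Fact.out : p.Prime).ne_zero) hc (fun _ _ _ => rfl) h.cof h.mem
    (fun s => by
      rw [show aa D (1, zg s) = D.M.a (1, zg s) from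
        congrArg (fun x => D.M.a (x, zg s)) (map_one D.ψ)]
      exact h.quad s) hθ

variable [Finite F] {Ω : Type} [Field Ω] [Algebra O Ω] [FaithfulSMul O Ω] (hZ : Z.Ok) (wn : Z.Wn)
  (hC : C.Ok) (hu : p = 2 → ∀ P, Ov p P → ¬ Uu P C.rb) (hD : D.Ok)

include hZ wn hC hu hD

/-- the points of the support satisfy the local conditions -/
theorem sup_loc (ts : TS) (hc : Idc c e) (hm : 0 < m) {θ : Module.End D.R D.M.Y}
    (hθ : Prj O (aa D) θ) {x : D.R →ₐ[O] Ω} (hx : Pt (Bs O θ (So D m c e)) x) (k : Z.J)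
    {E : Qb →+* CS p} (h : Ab E (C.P (C.u k))) :
    LocO (ok0 p) (fun σ => (D.fm (C.u k) ⟨rs E σ, h.mem σ⟩).map x) (rel m 1 (some c) e) := by
  have := RingHom.ker_isPrime x
  have := pt_fin hx.int
  have := pt_ff x
  have k0 : ∀ u ∈ D.I0, x u = 0 := fun u hu => hx.ker u (le_Bs hD hu)
  have k1 : ∀ u ∈ C.I (C.u k), x.comp (D.io (C.u k)) u = 0 := fun u hu => k0 _ (Pd.io_I0 hu)
  obtain ⟨r, hr⟩ := ex_hom x (fun σ : WB.Iso (CS p) => D.fm (C.u k) ⟨rs E σ, h.mem σ⟩)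
    (by
      have := (hC.uni (C.u k)).one.map _ k1
      rw [Matrix.map_one _ (map_zero _) (map_one _)] at this
      simp only [map_one]
      exact this) fun s t => by
      have := ((hC.uni (C.u k)).mul ⟨rs E s, h.mem s⟩ ⟨rs E t, h.mem t⟩).map _ k1
      rw [Matrix.map_mul (f := x.comp (D.io (C.u k)))] at this
      simp only [map_mul]
      exact this
  refine ⟨_, _, inferInstance, _, ‹_›, _, r, Ideal.kerLiftAlg_injective x,
    fun s => by rw [hr, map_ker], ts p O F _ Z C D m c e _ k E h r hZ wn hC hu hD hm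
      (fun u hu => Ideal.Quotient.eq_zero_iff_mem.2 (k0 u hu)) hr ?_⟩
  rw [ker_mk]
  exact (((hmfD hC hD hc θ hθ.1).2 hθ _ ‹_› hx.ker).1 fun o ho =>
    FaithfulSMul.algebraMap_injective O Ω (((x.commutes o).symm.trans ho).trans
      (map_zero _).symm)).pow (Nat.cast_ne_zero.2 (Fact.out : p.Prime).ne_zero)

/-- the points of the component which satisfy the local conditions lie in the support -/
theorem loc_sup (tt : TT) (hη : Z.Ty η) {J : ∀ t, Ideal (PS O (C.τ t))}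
    (sup : D.Sup (D.th η) J) {x : D.R →ₐ[O] Ω} (hx : Pt (D.J0 J) x) {E : Z.J → Qb →+* CS p}
    (h : ∀ k, Ab (E k) (C.P (C.u k))) (H : ∀ k, LocO (ok0 p)
      (fun σ => (D.fm (C.u k) ⟨rs (E k) σ, (h k).mem σ⟩).map x) (rel m 1 (some c) e)) :
    ∀ u ∈ Bs (R := D.R) O (D.th η) (So D m c e), x u = 0 := by
  have := RingHom.ker_isPrime x
  have := pt_fin hx.int
  have := pt_ff x
  choose r hr using fun k => ex_hom x
    (fun σ : WB.Iso (CS p) => D.fm (C.u k) ⟨rs (E k) σ, (h k).mem σ⟩) (H k).one (H k).mul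
  have T := tt p O F _ Z C D η J m c e _ E h r hZ wn hC hu hD hη sup
    (fun u hu => Ideal.Quotient.eq_zero_iff_mem.2 (hx.ker u hu)) hr fun k =>
      (H k).out hC.p_mem (Ideal.kerLiftAlg x) (mul_one 1) fun s => by
        rw [hr, map_ker, mul_one, one_mul]
  rw [ker_mk] at T
  rintro u ⟨o, o0, hu⟩
  by_contra n
  obtain ⟨-, θ', d, t1, t2, t3⟩ := prjA hD hη
  obtain ⟨j, w, hw⟩ := dvd_p (A := D.R ⧸ RingHom.ker x) hC.p_mem
    (a := Ideal.Quotient.mk _ u) (mt Ideal.Quotient.eq_zero_iff_mem.1 n)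
  obtain ⟨w, rfl⟩ := Ideal.Quotient.mk_surjective w
  obtain ⟨N, b, hb⟩ := dvd_pow_p hC.p_mem (mul_ne_zero o0 t2)
  obtain ⟨y, ⟨y1, y2⟩, y3, y4⟩ := T (j + N)
  refine y4 (funext fun i => ?_)
  obtain ⟨v, hv⟩ := y3 i
  have a1 := hu _ (So_map t1 y1) i
  rw [← hv, t3, hv] at a1
  have a2 := y2 i (MvPowerSeries.C ((p : O) ^ j) - u * w) (Ideal.Quotient.eq.1 (by
    rw [map_mul, ← hw, ← map_pow]; rfl))
  rw [sub_smul, C_smul, sub_eq_zero] at a2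
  rw [Pi.smul_apply, Pi.zero_apply, ← Nat.cast_smul_eq_nsmul O, Nat.cast_pow, pow_add, mul_comm,
    mul_smul, a2, hb, mul_comm u, mul_smul w, smul_comm _ w, mul_comm, mul_smul, mul_smul,
    smul_comm d, a1, smul_zero, smul_zero]

/-- **the prime at `p`** -/
theorem core (ts : TS) (tt : TT) (hη : Z.Ty η) {J : ∀ t, Ideal (PS O (C.τ t))}
    (sup : D.Sup (D.th η) J) {φ₀ : D.R →ₐ[O] O}
    (cm : ∀ t, ¬ Ov p (C.P t) → ∃ h, Cm (C.I t) (φ₀.comp (D.io t)) (J t) h) (hc : Idc c e)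
    (hm : 0 < m) (uf : Uf O id (So D m c e)) {P₀ : Id} {e₀ : Qb →+* CS p} (h₀ : Ab e₀ P₀)
    {τ₀ : Type} [Fintype τ₀] {r₀ : dec P₀ →* M2 F} {d : dec P₀ → O} {g₀ : τ₀ → dec P₀}
    {a₀ b₀ : τ₀ → Fin 2} {I₀ : Ideal (PS O τ₀)} {f₀ : dec P₀ → M2 (PS O τ₀)}
    (hU : Uni r₀ C.s d g₀ a₀ b₀ I₀ f₀)
    (δ : ∀ t, Ov p (C.P t) → (PS O (C.τ t) →ₐ[O] PS O τ₀))
    (trn : ∀ t h, ∃ (σ : GQ) (k : ∀ y ∈ dec (C.P t), σ⁻¹ * y * σ ∈ dec P₀) (γ γ' : M2 O),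
      σ • P₀ = C.P t ∧ Trn (C.I t) (C.f t) I₀ f₀ (cjH σ k) γ γ' (δ t h)) :
    ∃ J₀ : Ideal (PS O τ₀), J₀.IsPrime ∧ Sat J₀ ∧ I₀ ≤ J₀ ∧
      ((4 + 1 : ℕ) : WithBot ℕ∞) ≤ ringKrullDim (PS O τ₀ ⧸ J₀) ∧ Inv I₀ J₀ f₀ ∧
      (∀ 𝔮 : Ideal D.R, 𝔮.IsPrime → (∀ t h u, δ t h u ∈ J₀ → D.io t u ∈ 𝔮) →
        (∀ t, ¬ Ov p (C.P t) → ∀ u ∈ J t, D.io t u ∈ 𝔮) → D.J1 ≤ 𝔮 → D.L0 𝔮 →
        Module.Finite O (D.R ⧸ 𝔮)) ∧
      ∀ (W : Type) [CommRing W] [IsDomain W] [Algebra O W] [Module.Finite O W] [FaithfulSMul O W]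
        (x : PS O τ₀ →ₐ[O] W) (r : WB.Iso (CS p) →* M2 W), (∀ u ∈ J₀, x u = 0) →
        (∀ s, r s = (f₀ ⟨rs e₀ s, h₀.mem s⟩).map x) →
        Loc (ok0 p) (mv r) (smf (algebraMap O W)) (rel m 1 (some c) e) := by
  let Ω := AlgebraicClosure (FractionRing O)
  have : FaithfulSMul O Ω := (faithfulSMul_iff_algebraMap_injective _ _).2
    ((algebraMap (FractionRing O) Ω).injective.comp (IsFractionRing.injective O _))
  choose σ kσ γ γ' e1 T using trn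
  have ov := fun k => (hC.u k).1
  let E : Z.J → Qb →+* CS p := fun k => e₀.comp (σ _ (ov k))⁻¹.toRingEquiv.toRingHom
  have hE : ∀ k, Ab (E k) (C.P (C.u k)) := fun k => e1 _ (ov k) ▸ h₀.smul _
  let Y : Set (PS O τ₀ →ₐ[O] Ω) := {y | Pt I₀ y ∧
    LocO (ok0 p) (fun s => (f₀ ⟨rs e₀ s, h₀.mem s⟩).map y) (rel m 1 (some c) e)}
  have gi := fun k => map_inv (algebraMap O Ω) (T _ (ov k)).inv
  have mt : ∀ k (x : D.R →ₐ[O] Ω) (y : PS O τ₀ →ₐ[O] Ω), (∀ u ∈ I₀, y u = 0) →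
      x.comp (D.io (C.u k)) = y.comp (δ _ (ov k)) → ∀ s,
      (D.fm (C.u k) ⟨rs (E k) s, (hE k).mem s⟩).map x = (γ _ (ov k)).map (algebraMap O Ω) *
        (f₀ ⟨rs e₀ s, h₀.mem s⟩).map y * (γ' _ (ov k)).map (algebraMap O Ω) :=
    fun k x y hy e s => by
      have := (T _ (ov k)).map hy ⟨rs (E k) s, (hE k).mem s⟩
      rw [← e, show cjH _ (kσ _ (ov k)) ⟨rs (E k) s, (hE k).mem s⟩ = ⟨rs e₀ s, h₀.mem s⟩ from
        Subtype.ext (by
          show (σ _ (ov k))⁻¹ * rs (E k) s * σ _ (ov k) = rs e₀ s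
          rw [rs_comp]
          group)] at this
      exact this
  have H1 : ∀ θ : Module.End D.R D.M.Y, Prj O (aa D) θ → ∀ x : D.R →ₐ[O] Ω,
      Pt (Bs O θ (So D m c e)) x → ∀ t h, ∃ y ∈ Y, x.comp (D.io t) = y.comp (δ t h) := by
    intro θ hθ x hx t h
    obtain ⟨k, rfl⟩ := (hC.ov_iff hZ t).1 h
    obtain ⟨y, y1, y2⟩ := (T _ h).ex_pt (φ := x.comp (D.io (C.u k)))
      ⟨fun u hu => hx.ker _ (le_Bs hD (Pd.io_I0 hu)), fun u => hx.int _⟩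
    refine ⟨y, ⟨y1, (sup_loc hZ wn hC hu hD ts hc hm hθ hx k (hE k)).tr hC.p_mem y
      (pt_fin y1.int) (gi k) fun s => ?_⟩, y2⟩
    rw [mt k x y y1.ker y2, ← mul_assoc, ← mul_assoc, mul_eq_one_comm.1 (gi k), one_mul, mul_assoc,
      mul_eq_one_comm.1 (gi k), mul_one]
  have pA := prjA hD hη
  obtain ⟨t₀, h₁⟩ : ∃ t, Ov p (C.P t) := by
    obtain ⟨k, -⟩ := ((hZ.up P₀).1 h₀.ov).2
    exact ⟨_, ov k⟩
  have num : 3 * Fintype.card C.T + D.n1 < D.r := by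
    obtain ⟨k, -⟩ := (hC.ov_iff hZ _).1 h₁
    have := hD.num
    have := Fintype.card_pos_iff.2 ⟨k⟩
    omega
  have ne : Y.Nonempty := by
    have p1 : Prj O (aa D) 1 := ⟨fun _ => Commute.one_left _, 1, 1, fun _ => Commute.one_left _,
      one_ne_zero, fun v => (one_smul _ _).symm⟩
    by_contra k
    obtain ⟨n, o, o0, hn⟩ := jac O _ Ω _ 1 (sat_Bs (θ := 1) (S := So D m c e)) fun x hx =>
      (k ((H1 1 p1 x hx t₀ h₁).imp fun _ h => h.1)).elim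
    obtain ⟨z, z1, i, z2⟩ := uf o o0
    exact z2 (by simpa using hn z z1 i)
  obtain ⟨J₀, j1, j2, j3, j4, j5, j6, j7⟩ := minp (b := Bs O (D.th η) (So D m c e)) hU hC.sec D.e
    hD.aux.sat hD.aux.dim hD.aux.pt num ⟨t₀, h₁⟩ δ (fun t h => (T t h).lc)
    (fun t h => (T t h).sur) C.I J (fun t h => by
      obtain ⟨g, k⟩ := cm t h
      exact ⟨(sup.good hC t).2.1, k.par.dim.le, _, g, k.ker, k.ne, k.mul⟩)
    (le_Bs hD)
    (fun u hu => ⟨_, fun v => mem_Bs, sat_Bs,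
      (hmfD hC hD hc _ fun x => (pA.1 x).smul_left u).1 (uf_of hu)⟩) ne (fun y hy => hy.1)
    (fun y hy y' c c' k1 k2 k3 => ⟨k1, hy.2.tr hC.p_mem y' (pt_fin k1.int) k2 fun s => k3 _⟩)
    (H1 _ pA) fun x x1 x2 x3 => by
      choose y y1 y2 using x2
      refine loc_sup hZ wn hC hu hD tt hη sup ⟨(sup_le (sumI_le.2 fun t u hu => ?_) x1.ker :
        _ ≤ RingHom.ker x), x1.int⟩
        hE fun k => (y1 _ (ov k)).2.tr hC.p_mem x (pt_fin x1.int) (mul_eq_one_comm.1 (gi k))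
          (mt k x _ (y1 _ _).1.ker (y2 _ _))
      by_cases h : Ov p (C.P t)
      · obtain ⟨k, rfl⟩ := (hC.ov_iff hZ t).1 h
        exact (DFunLike.congr_fun (y2 _ h) u).trans
          ((T _ h).ker (y1 _ h).1.ker u (sup.pe k ▸ hu))
      · exact x3 t h u hu
  refine ⟨J₀, j1, j2, j3, j4, j5, fun 𝔮 q1 q2 q3 q4 q5 => ?_, fun W _ _ _ _ _ x r x1 x2 => ?_⟩
  · have z : ∀ u, Ideal.Quotient.mkₐ O 𝔮 u = 0 ↔ u ∈ 𝔮 := fun u => Ideal.Quotient.eq_zero_iff_mem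
    refine ((hmfD hC hD hc _ pA.1).2 pA 𝔮 q1 fun u hu => (z u).1 (j7 _ _
      (fun t h u k => (z _).2 (q2 t h u k)) (fun t h u k => (z _).2 (q3 t h u k))
      (fun u k => (z _).2 (q4 k)) u hu)).2 fun s => ?_
    by_cases hs : s ∈ D.S
    · exact ⟨0, 0, by simpa using q5.1 s hs, by simpa using q5.2 s⟩
    · obtain ⟨o, ho⟩ := hD.cst s hs
      exact ⟨o, 0, by simp [ho], by simpa using q5.2 s⟩
  · let j : W →ₐ[O] Ω := IsAlgClosed.lift
    exact (j6 (j.comp x) ⟨fun u hu => by rw [AlgHom.comp_apply, x1 u hu, map_zero],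
      fun u => (Algebra.IsIntegral.isIntegral (x u)).map j⟩).2.out hC.p_mem j (mul_one 1)
      fun s => by rw [x2, mul_one, one_mul]; rfl

end Vale.Agent.P022K.LF
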