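import Vale.Agent.P022K.LF.St
import Vale.Agent.P022K.Top.Loc

/-!
# P022K, block LF, row HMF, part A: the projector of a type, the twisted action
-/

set_option linter.all false

noncomputable section

namespace Vale.Agent.P022K.LF.Hmf

open Matrix Function Sh WB

section proj

variable {O R N G H : Type} [CommRing O] [CommRing R] [Algebra O R] [AddCommGroup N] [Module O N]
  [Module R N] [IsScalarTower O R N] [Group G] [Group H] [Fintype H] (π : G →* H) (l : H → G)
  (c : H → O) (e : O)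

/-- the vectors of type `c` -/
def Ty (t : G →* Module.End R N) (z : N) : Prop :=
  (∀ g, π g = 1 → t g z = z) ∧ ∑ h, c h • t (l h) z = e • z

variable {π l c e} (hl : ∀ h, π (l h) = h) (hc : ∀ g, ∑ h, c h * c (h⁻¹ * g) = e * c g)
  (G2 : Subgroup G) [G2.Normal] [G2.FiniteIndex]

include hl hc

theorem one (t : G →* Module.End R N) (ht : G2 ≤ t.ker) :
    ∃ (θ : Module.End R N) (κ : ℕ), κ ≠ 0 ∧ (∀ x, Ty π l c e t (θ x)) ∧
      (∀ z, Ty π l c e t z → θ z = (κ * e) • z) ∧ ∀ f, (∀ g, Commute f (t g)) → Commute f θ := by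
  classical
  let t' := QuotientGroup.lift G2 t ht
  let U := π.ker.map (QuotientGroup.mk' G2)
  have := Fintype.ofFinite U
  have h1 : ∀ g, π g = 1 → ∀ x, t g ((∑ u : U, t' u) x) = (∑ u : U, t' u) x := fun g hg x => by
    rw [← Module.End.mul_apply, Finset.mul_sum,
      ← Equiv.sum_comp (Equiv.mulLeft (⟨g, g, hg, rfl⟩ : U)) fun u : U => t' u]
    exact congrArg (fun f : Module.End R N => f x)
      (Finset.sum_congr rfl fun u _ => (map_mul t' (g : G ⧸ G2) u).symm)
  have h2 : ∀ w, (∀ g, π g = 1 → t g w = w) → ∀ g g', π g = π g' → t g w = t g' w :=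
    fun w hw g g' e => by
      rw [← mul_inv_cancel_left g' g, map_mul, Module.End.mul_apply, hw _ (by simp [e])]
  refine ⟨(∑ h, c h • t (l h)) * ∑ u : U, t' u, Fintype.card U, Fintype.card_ne_zero, fun x => ?_,
    fun z hz => ?_, fun f hf => (Commute.sum_right _ _ _ fun h _ => (hf _).smul_right _).mul_right
      (Commute.sum_right _ _ _ fun u _ => ?_)⟩
  · have h3 := h2 _ fun g hg => h1 g hg x
    rw [Module.End.mul_apply]
    generalize (∑ u : U, t' u) x = w at h3
    have h4 : ∀ g, t g ((∑ h, c h • t (l h)) w) = ∑ h, c ((π g)⁻¹ * h) • t (l h) w := fun g => by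
      simp only [LinearMap.sum_apply, LinearMap.smul_apply, map_sum, LinearMap.map_smul_of_tower]
      rw [← Equiv.sum_comp (Equiv.mulLeft (π g)) fun h => c ((π g)⁻¹ * h) • t (l h) w]
      refine Finset.sum_congr rfl fun h _ => ?_
      rw [← Module.End.mul_apply, ← map_mul, h3 _ (l (π g * h)) (by simp [hl])]
      simp
    refine ⟨fun g hg => by rw [h4]; simp [hg], ?_⟩
    simp only [h4]
    simp only [hl, Finset.smul_sum, smul_smul, LinearMap.sum_apply, LinearMap.smul_apply]
    rw [Finset.sum_comm]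
    simp only [← Finset.sum_smul, hc]
  · have : (∑ u : U, t' u) z = Fintype.card U • z := by
      rw [LinearMap.sum_apply, Finset.sum_eq_card_nsmul (b := z), Finset.card_univ]
      rintro ⟨_, g, hg, rfl⟩ -
      exact hz.1 g hg
    rw [Module.End.mul_apply, this, map_nsmul, mul_smul, Nat.cast_smul_eq_nsmul, ← hz.2]
    simp
  · obtain ⟨g, hg⟩ := QuotientGroup.mk_surjective u.1
    rw [← hg]
    exact hf g

theorem all [IsDomain O] (h0 : ∀ n : ℕ, n ≠ 0 → (n : O) ≠ 0) (he : e ≠ 0) {J : Type} [Fintype J]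
    (t : J → G →* Module.End R N) (ht : ∀ k, G2 ≤ (t k).ker)
    (com : ∀ k k', k ≠ k' → ∀ g g', Commute (t k g) (t k' g')) :
    ∃ (θ : Module.End R N) (w : O), w ≠ 0 ∧ (∀ x k, Ty π l c e (t k) (θ x)) ∧
      (∀ z, (∀ k, Ty π l c e (t k) z) → θ z = w • z) ∧
      ∀ f, (∀ k g, Commute f (t k g)) → Commute f θ := by
  classical
  choose θ κ h1 h2 h3 h4 using fun k => one hl hc G2 (t k) (ht k)
  have h5 : ((Finset.univ : Finset J) : Set J).Pairwise (Commute on θ) := fun k _ k' _ e =>
    h4 k' _ fun g => (h4 k _ fun g' => com k' k e.symm g g').symm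
  obtain ⟨w, hw, h6⟩ := Finset.noncommProd_induction Finset.univ θ h5
    (fun f => ∃ w : O, w ≠ 0 ∧ ∀ z, (∀ k, Ty π l c e (t k) z) → f z = w • z)
    (fun a b ⟨x, x0, hx⟩ ⟨y, y0, hy⟩ => ⟨y * x, mul_ne_zero y0 x0, fun z hz => by
      rw [Module.End.mul_apply, hy z hz, LinearMap.map_smul_of_tower, hx z hz, mul_smul]⟩)
    ⟨1, one_ne_zero, fun z _ => (one_smul O z).symm⟩
    fun k _ => ⟨_, mul_ne_zero (h0 _ (h1 k)) he, fun z hz => h3 k z (hz k)⟩
  refine ⟨_, w, hw, fun x k => ?_, h6, fun f hf =>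
    Finset.noncommProd_commute _ _ _ _ fun k _ => h4 k f (hf k)⟩
  rw [← Finset.mul_noncommProd_erase _ (Finset.mem_univ k)]
  exact h2 k _

end proj

section tw

variable {O R M Γ ι : Type} [CommRing O] [CommRing R] [Algebra O R] [AddCommGroup M] [Module O M]
  [Module R M] [IsScalarTower O R M] [Group Γ] [Fintype ι] [DecidableEq ι]

/-- the action on `V ⊗ M` -/
def tw (T : Γ →* Matrix ι ι O) (A : Γ →* Module.End R M) : Representation R Γ (ι → M) where
  toFun g := LinearMap.pi fun i => ∑ j, T g i j • (A g).comp (LinearMap.proj j)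
  map_one' := LinearMap.ext fun x => funext fun i => by simp [one_apply]
  map_mul' g h := LinearMap.ext fun x => funext fun i => by
    simp only [map_mul, mul_apply, LinearMap.pi_apply, LinearMap.sum_apply, LinearMap.smul_apply,
      LinearMap.comp_apply, LinearMap.proj_apply, Module.End.mul_apply, map_sum,
      LinearMap.map_smul_of_tower, Finset.sum_smul, Finset.smul_sum, mul_smul]
    exact Finset.sum_comm

variable {T : Γ →* Matrix ι ι O} {A : Γ →* Module.End R M}

theorem tw_apply (g : Γ) (x : ι → M) (i : ι) : tw T A g x i = ∑ j, T g i j • A g (x j) := by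
  simp [tw]

theorem tw_fix {g : Γ} {x : ι → M} :
    tw T A g x = x ↔ ∀ i, A g (x i) = ∑ j, T g⁻¹ i j • x j := by
  refine ⟨fun h i => ?_, fun h => funext fun i => ?_⟩
  · conv_rhs => rw [← h]
    simp only [tw_apply, Finset.smul_sum, smul_smul]
    rw [Finset.sum_comm]
    simp [← Finset.sum_smul, ← mul_apply, ← map_mul, one_apply]
  · simp only [tw_apply, h, Finset.smul_sum, smul_smul]
    rw [Finset.sum_comm]
    simp [← Finset.sum_smul, ← mul_apply, ← map_mul, one_apply]

theorem tw_com {f : Module.End R M} (hf : ∀ g, Commute f (A g)) (g : Γ) (x : ι → M) :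
    tw T A g (f.compLeft ι x) = f.compLeft ι (tw T A g x) := funext fun i => by
  simp only [tw_apply, LinearMap.compLeft_apply, Function.comp_apply, map_sum, LinearMap.map_smul_of_tower,
    ← Module.End.mul_apply, (hf g).eq]

end tw

variable {p : ℕ} [Fact p.Prime]

theorem jK_inj : Injective (jK (p := p)) := fun _ _ e =>
  Units.ext (map_injective Subtype.val_injective (congrArg Units.val e))

/-- the integral matrix of an element of a congruence subgroup -/
def lz (n : ℕ) : Kn p n →* GL (Fin 2) ℤ_[p] :=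
  MonoidHom.mk' (fun g => (mem_Kn_iff.1 g.2).choose) fun a b => jK_inj (by
    rw [jK, jK, map_mul]
    exact (mem_Kn_iff.1 (a * b).2).choose_spec.2.trans (congrArg₂ (· * ·)
      (mem_Kn_iff.1 a.2).choose_spec.2 (mem_Kn_iff.1 b.2).choose_spec.2).symm)

theorem jK_lz {n : ℕ} (g : Kn p n) : jK (lz n g) = g := (mem_Kn_iff.1 g.2).choose_spec.2

theorem red_lz {n : ℕ} (g : Kn p n) :
    GeneralLinearGroup.map (PadicInt.toZModPow n) (lz n g) = 1 := (mem_Kn_iff.1 g.2).choose_spec.1

theorem map_one_iff {A B : Type} [CommRing A] [CommRing B] (f : A →+* B) {y : GL (Fin 2) A} :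
    GeneralLinearGroup.map f y = 1 ↔ ∀ i j, (y.val - 1) i j ∈ RingHom.ker f := by
  rw [Units.ext_iff, ← Matrix.ext_iff]
  refine forall₂_congr fun i j => ?_
  rw [RingHom.mem_ker, Matrix.sub_apply, map_sub, sub_eq_zero, Units.val_one, one_apply,
    one_apply, apply_ite f, map_one, map_zero]
  rfl

theorem red_iff {y : GL (Fin 2) ℤ_[p]} : GeneralLinearGroup.map PadicInt.toZMod y = 1 ↔
    GeneralLinearGroup.map (PadicInt.toZModPow 1) y = 1 := by
  rw [map_one_iff, map_one_iff, PadicInt.ker_toZMod, PadicInt.ker_toZModPow, pow_one,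
    PadicInt.maximalIdeal_eq_span_p]

variable {O R M J : Type} [CommRing O] [Algebra ℤ_[p] O] [CommRing R] [Algebra O R]
  [AddCommGroup M] [Module O M] [Module R M] [IsScalarTower O R M] [Fintype J] [DecidableEq J]

variable (p O J) in
/-- the weight matrices -/
def wt (m : ℕ) : (J → GL (Fin 2) ℤ_[p]) →* Matrix (J → Fin (2 * m + 1)) (J → Fin (2 * m + 1)) O :=
  (Ap.W m).comp ((GeneralLinearGroup.map (algebraMap ℤ_[p] O)).compLeft J)

theorem mem_Sol {α : J → Representation O (G2 p) M} {A : (J → GL (Fin 2) ℤ_[p]) →* Module.End R M}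
    (hA : ∀ k y v, α k (jK y) v = A (Pi.mulSingle k y) v) {m : ℕ} {c : GL (Fin 2) (ZMod p) → O}
    {e : O} {z : (J → Fin (2 * m + 1)) → M} : z ∈ Sol α m c e ↔
      ∀ k, Ty (GeneralLinearGroup.map PadicInt.toZMod) lfK c e
        ((tw (wt p O J m) A).comp (MonoidHom.mulSingle (fun _ => GL (Fin 2) ℤ_[p]) k)) z := by
  have h : ∀ k y a i, tw1 (α k) m y (fun i => z (update a k i)) i =
      tw (wt p O J m) A (Pi.mulSingle k y) z (update a k i) := fun k y a i => by
    have : wt p O J m (Pi.mulSingle k y) = kr (Pi.mulSingle k (syO O m y)) := congrArg kr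
      (funext fun k' => Pi.apply_mulSingle (fun _ y => syO O m y) (fun _ => by rw [syO, map_one, map_one]) k y k')
    simp only [tw_apply, this, kr_sum, update_self, update_idem, tw1, hA]
  simp only [Sol, SlS, Submodule.mem_mk, AddSubmonoid.mem_mk, AddSubsemigroup.mem_mk,
    Set.mem_setOf_eq, mem_rel, funext_iff, Finset.sum_apply, Pi.smul_apply, h, Ty, red_iff,
    MonoidHom.comp_apply, MonoidHom.mulSingle_apply]
  refine ⟨fun h k => ⟨fun y hy a => ?_, fun a => ?_⟩, fun h => ⟨fun _ => trivial, fun k _ a =>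
    ⟨fun y hy i => (h k).1 y hy _, ?_⟩⟩⟩
  · simpa only [update_eq_self] using (h.2 k trivial a).1 y hy (a k)
  · simpa only [update_eq_self] using (h.2 k trivial a).2 c rfl (a k)
  · rintro _ ⟨rfl⟩ i
    exact (h k).2 _

theorem wt_cts [IsLocalRing O] (hp : (p : O) ∈ IsLocalRing.maximalIdeal O) (m j : ℕ)
    {g : J → Kn p (0 + 2)} (hg : g ∈ RT.NG p 0 J j) (a a' : J → Fin (2 * m + 1)) :
    (wt p O J m ((lz _).compLeft J g) - 1) a a' ∈ IsLocalRing.maximalIdeal O ^ j := by
  choose z k hk e using RT.mem_NG.1 hg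
  let q := Ideal.Quotient.mk (IsLocalRing.maximalIdeal O ^ j)
  have h1 : wt p O J m ((lz _).compLeft J g) = wt p O J m fun v => lz _ ⟨k v, hk v⟩ :=
    Ap.W_congr m fun v => by
      have h2 : jK (lz _ (g v) * (lz _ ⟨k v, hk v⟩)⁻¹) = dd (z v) (z v) := by
        rw [jK, map_mul, map_inv]
        exact (congrArg₂ (fun a b => a * b⁻¹) (jK_lz _) (jK_lz _)).trans (by simp [e v])
      show ∃ c : O, (GeneralLinearGroup.map (algebraMap ℤ_[p] O) (lz _ (g v)) *
        (GeneralLinearGroup.map (algebraMap ℤ_[p] O) (lz _ ⟨k v, hk v⟩))⁻¹).val =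
          algebraMap O (Matrix (Fin 2) (Fin 2) O) c
      rw [← map_inv, ← map_mul]
      generalize lz _ (g v) * (lz _ ⟨k v, hk v⟩)⁻¹ = s at h2
      have h3 : ∀ i j, (s.val i j : ℚ_[p]) = dd (z v) (z v) i j := fun i j =>
        congrArg (fun x : G2 p => x i j) h2
      have h4 : s.val 0 1 = 0 := Subtype.ext (by simpa using h3 0 1)
      have h5 : s.val 1 0 = 0 := Subtype.ext (by simpa using h3 1 0)
      have h6 : s.val 1 1 = s.val 0 0 := Subtype.ext (by simp [h3])
      refine ⟨algebraMap ℤ_[p] O (s.val 0 0), ?_⟩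
      ext i j
      fin_cases i <;> fin_cases j <;> simp [algebraMap_matrix_apply, h4, h5, h6]
  have h2 : (wt p O J m fun v => lz _ ⟨k v, hk v⟩).map q = 1 := by
    refine (Ap.W_map q m _).symm.trans ((congrArg _ (funext fun v => ?_)).trans (map_one _))
    refine (map_one_iff (q.comp (algebraMap ℤ_[p] O))).2 fun a b => ?_
    obtain ⟨d, hd⟩ := Ideal.mem_span_singleton.1
      (PadicInt.ker_toZModPow (p := p) _ ▸ (map_one_iff _).1 (red_lz ⟨k v, hk v⟩) a b)
    rw [RingHom.mem_ker, RingHom.comp_apply, hd, map_mul, map_pow, map_natCast,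
      Ideal.Quotient.eq_zero_iff_mem, pow_add]
    exact Ideal.mul_mem_right _ _ (Ideal.mul_mem_right _ _ (Ideal.pow_mem_pow hp j))
  rw [h1, ← Ideal.Quotient.eq_zero_iff_mem, Matrix.sub_apply, map_sub, sub_eq_zero]
  exact (congrFun (congrFun h2 a) a').trans (by
    rw [one_apply, one_apply, apply_ite (Ideal.Quotient.mk _), map_one, map_zero])

end Vale.Agent.P022K.LF.Hmf
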