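import Vale.Agent.P022K.LF.St
import Vale.Agent.P022K.WB.Pat2

/-!
# P022K, block LF, row NZA: vectors of a given type exist in some weight
-/

set_option linter.all false

noncomputable section

namespace Vale.Agent.P022K.LF

open Vale.Agent.P022K.RT Vale.Agent.P022K.WB

namespace Nz

open Matrix Function Sh Polynomial

theorem ex_form {S ι : Type} [CommRing S] (s : Finset ι) (α β : ι → S) : ∃ f : S[X],
    f.natDegree ≤ 2 * s.card ∧
      ∀ x y : S, hm (2 * s.card) f x y = ∏ h ∈ s, (α h * x + β h * y) ^ 2 := by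
  classical
  induction s using Finset.induction_on with
  | empty => exact ⟨1, by simp, fun x y => by simp [hm]⟩
  | insert h s hs ih =>
    obtain ⟨f, f1, f2⟩ := ih
    rw [Finset.card_insert_of_notMem hs, mul_add, mul_one]
    refine ⟨(C (α h) * X + C (β h)) ^ 2 * f, natDegree_mul_le.trans ?_, fun x y => ?_⟩
    · have := natDegree_lin_pow (α h) (β h) 2
      omega
    · rw [hm_lin_pow _ _ f1, f2, Finset.prod_insert hs]
      rfl

/-- the characteristic function of the centre is a combination of matrix coefficients -/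
theorem mc (F : Type) [Field F] [Finite F] : ∃ m, 0 < m ∧
    ∃ n : Fin (2 * m + 1) → Fin (2 * m + 1) → F, ∀ g : GL (Fin 2) F,
      (g ∈ Subgroup.center (GL (Fin 2) F) → ∑ j, ∑ k, n j k * syd m g j k = 1) ∧
      (g ∉ Subgroup.center (GL (Fin 2) F) → ∑ j, ∑ k, n j k * syd m g j k = 0) := by
  classical
  have := Fintype.ofFinite (GL (Fin 2) F)
  let s : Finset (GL (Fin 2) F) := Finset.univ.filter fun h => h ∉ Subgroup.center _
  let A : GL (Fin 2) F → F[X] := fun g => C (g 0 0) * X + C (g 0 1)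
  let B : GL (Fin 2) F → F[X] := fun g => C (g 1 0) * X + C (g 1 1)
  obtain ⟨f, -, hf⟩ := ex_form s B fun h => -A h
  set Φ : F[X] := ∏ h ∈ s, (B h * X + -A h * 1) ^ 2 with hΦ
  have h0 : Φ ≠ 0 := Finset.prod_ne_zero_iff.2 fun h hh => pow_ne_zero _ fun e =>
    (Finset.mem_filter.1 hh).2 (GeneralLinearGroup.mem_center_iff_val_mem_range_scalar.2
      ⟨h 0 0, by
        have c0 := congrArg (coeff · 0) e
        have c1 := congrArg (coeff · 1) e
        have c2 := congrArg (coeff · 2) e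
        simp [A, B, add_mul, mul_assoc, ← pow_two, coeff_X, coeff_C] at c0 c1 c2
        ext i j
        fin_cases i <;> fin_cases j <;> simp [c0, c2, (add_neg_eq_zero.1 c1).symm]⟩)
  let lam : F[X] →ₗ[F] F := Φ.leadingCoeff⁻¹ • lcoeff F Φ.natDegree
  let n : Fin (2 * s.card + 1) → Fin (2 * s.card + 1) → F := fun j k => lam (f.coeff j * X ^ k.1)
  have key : ∀ g : GL (Fin 2) F, ∑ j, ∑ k, n j k * syd s.card g j k =
      ((g.det⁻¹ ^ s.card : Fˣ) : F) * lam (∏ h ∈ s, (B h * A g + -A h * B g) ^ 2) := fun g => by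
    rw [← hf, hm, ← Fin.sum_univ_eq_sum_range fun k => algebraMap F[X] F[X] (f.coeff k) *
      (A g ^ k * B g ^ (2 * s.card - k)), map_sum, Finset.mul_sum]
    refine Finset.sum_congr rfl fun j _ => ?_
    have := sum_mon (S := F[X]) (2 * s.card) g.val j X 1
    simp only [one_pow, mul_one, algebraMap_eq] at this
    rw [← this, Finset.mul_sum, map_sum, Finset.mul_sum]
    refine Finset.sum_congr rfl fun k _ => ?_
    rw [Ap.syd_apply, sy_apply, Algebra.algebraMap_self, RingHom.id_apply, mul_left_comm (f.coeff j),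
      ← smul_eq_C_mul, map_smul, smul_eq_mul]
    ring
  refine ⟨s.card, Finset.card_pos.2 ⟨GeneralLinearGroup.mkOfDetNeZero !![1, 1; 0, 1] (by simp),
    Finset.mem_filter.2 ⟨Finset.mem_univ _, fun e => ?_⟩⟩, n, fun g => ⟨fun hg => ?_, fun hg => ?_⟩⟩
  · obtain ⟨c, hc⟩ := GeneralLinearGroup.mem_center_iff_val_mem_range_scalar.1 e
    simpa using congrFun (congrFun hc 0) 1
  · obtain ⟨c, hc⟩ := GeneralLinearGroup.mem_center_iff_val_mem_range_scalar.1 hg
    have e : syd s.card g = syd s.card 1 := by rw [Ap.syd_scalar _ hc.symm, map_one]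
    rw [e, key]
    simp only [map_one, inv_one, one_pow, Units.val_one, one_mul]
    have : ∏ h ∈ s, (B h * A 1 + -A h * B 1) ^ 2 = Φ := by simp [hΦ, A, B]
    rw [this]
    exact inv_mul_cancel₀ (leadingCoeff_ne_zero.2 h0)
  · rw [key, Finset.prod_eq_zero (Finset.mem_filter.2 ⟨Finset.mem_univ g, hg⟩) (by ring), map_zero,
      mul_zero]


section tp

variable {O M A : Type} [CommRing O] [AddCommGroup M] [Module O M] [Fintype A] [DecidableEq A]

/-- a matrix tensored with an operator -/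
def tp (S : Matrix A A O) (f : Module.End O M) : Module.End O (A → M) where
  toFun x α := ∑ β, S α β • f (x β)
  map_add' x y := funext fun α => by simp [Finset.sum_add_distrib]
  map_smul' c x := funext fun α => by simp [Finset.smul_sum, smul_comm c]

theorem tp_apply (S : Matrix A A O) (f : Module.End O M) (x : A → M) (α : A) :
    tp S f x α = ∑ β, S α β • f (x β) := rfl

theorem tp_mul (S S' : Matrix A A O) (f f' : Module.End O M) :
    tp (S * S') (f * f') = tp S f * tp S' f' := LinearMap.ext fun x => funext fun α => by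
  simp only [Module.End.mul_apply, tp_apply, Matrix.mul_apply, Finset.sum_smul, map_sum, map_smul,
    Finset.smul_sum, mul_smul]
  exact Finset.sum_comm

theorem tp_one : tp (1 : Matrix A A O) (1 : Module.End O M) = 1 :=
  LinearMap.ext fun x => funext fun α => by simp [tp_apply, Matrix.one_apply]

theorem tp_single {S : Matrix A A O} {f : Module.End O M} {v : M} (α : A)
    (h : ∀ β, (S - 1) β α • f v = 0) : tp S f (Pi.single α v) = Pi.single α (f v) :=
  funext fun β => by
    have := h β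
    rw [Matrix.sub_apply, sub_smul, sub_eq_zero] at this
    rw [tp_apply, Finset.sum_eq_single α (fun b _ e => by simp [e]) (by simp), Pi.single_eq_same,
      this, Matrix.one_apply, Pi.single_apply]
    split_ifs <;> simp

variable {J I : Type} [Fintype J] [DecidableEq J] [Fintype I] [DecidableEq I]

/-- the same at one place -/
def L (k : J) (S : Matrix I I O) (f : Module.End O M) : Module.End O ((J → I) → M) :=
  tp (kr (Pi.mulSingle k S)) f

theorem L_apply (k : J) (S : Matrix I I O) (f : Module.End O M) (x : (J → I) → M) (a : J → I) :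
    L k S f x a = ∑ j, S (a k) j • f (x (update a k j)) := by
  refine (Fintype.sum_of_injective (update a k) (update_injective a k) _ _
    (fun b hb => ?_) fun j => ?_).symm
  · obtain ⟨i, h1, h2⟩ : ∃ i, i ≠ k ∧ a i ≠ b i := by
      by_contra! c
      exact hb ⟨b k, funext fun i => by
        by_cases e : i = k
        · rw [e, update_self]
        · rw [update_of_ne e, c i e]⟩
    refine smul_eq_zero_of_left (Finset.prod_eq_zero (Finset.mem_univ i) ?_) _
    rw [Pi.mulSingle_eq_of_ne h1, one_apply_ne h2]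
  · refine congrArg (· • _) (Eq.symm ?_)
    refine (Finset.prod_eq_single k (fun i _ e => ?_) fun c => absurd (Finset.mem_univ _) c).trans ?_
    · rw [Pi.mulSingle_eq_of_ne e, update_of_ne e, one_apply_eq]
    · rw [Pi.mulSingle_eq_same, update_self]

theorem L_comm {k k' : J} (h : k ≠ k') (S S' : Matrix I I O) {f f' : Module.End O M}
    (hf : Commute f f') : Commute (L k S f) (L k' S' f') := by
  rw [Commute, SemiconjBy, L, L, ← tp_mul, ← tp_mul, ← map_mul, ← map_mul, hf.eq,
    (Pi.mulSingle_commute (f := fun _ : J => Matrix I I O) h S S').eq]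

theorem L_unit (k : J) (S : Matrix I I O) (f : Module.End O M) (i i' j : I) (x : (J → I) → M)
    (a : J → I) : L k (single i j (1 : O)) 1 (L k S f (L k (single i' i (1 : O)) 1 x)) a =
      if a k = i then S j i' • f (x a) else 0 := by
  simp only [L_apply, update_self, update_idem, Module.End.one_apply, single_apply, ite_smul,
    one_smul, zero_smul, ite_and, Finset.sum_ite_eq, Finset.mem_univ, if_true,
    Finset.sum_ite_irrel, Finset.sum_const_zero, apply_ite f, map_zero, smul_ite, smul_zero]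
  by_cases e : a k = i
  · rw [if_pos e.symm, if_pos e, ← e, update_eq_self]
  · rw [if_neg (Ne.symm e), if_neg e]

theorem kr_sub {q : O} {S : J → Matrix I I O} (h : ∀ k i j, q ∣ (S k - 1) i j) (a b : J → I) :
    q ∣ (kr S - 1) a b := by
  rw [← map_one (kr (R := O) (ι := J) (n := I)), ← Ideal.mem_span_singleton,
    Matrix.sub_apply, ← Ideal.Quotient.eq]
  show Ideal.Quotient.mk _ (∏ k, S k (a k) (b k)) =
    Ideal.Quotient.mk _ (∏ k, (1 : Matrix I I O) (a k) (b k))
  rw [map_prod, map_prod]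
  exact Finset.prod_congr rfl fun k _ => Ideal.Quotient.eq.2 (Ideal.mem_span_singleton.2 (h k _ _))

end tp

variable {p : ℕ} [Fact p.Prime] {O : Type} [CommRing O] [Algebra ℤ_[p] O]

/-- the reduction -/
abbrev rd : GL (Fin 2) ℤ_[p] →* GL (Fin 2) (ZMod p) := GeneralLinearGroup.map PadicInt.toZMod

theorem map_eq_one {R R' : Type} [CommRing R] [CommRing R'] (φ : R →+* R') (y : GL (Fin 2) R) :
    GeneralLinearGroup.map φ y = 1 ↔ ∀ i j, (y.val - 1) i j ∈ RingHom.ker φ := by
  simp only [Units.ext_iff, ← Matrix.ext_iff, RingHom.mem_ker]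
  refine forall₂_congr fun i j => ?_
  rw [Matrix.sub_apply, map_sub, sub_eq_zero]
  by_cases h : i = j <;> simp [Matrix.one_apply, h]

theorem rd_iff (y : GL (Fin 2) ℤ_[p]) :
    GeneralLinearGroup.map (PadicInt.toZModPow 1) y = 1 ↔ rd y = 1 := by
  rw [map_eq_one, map_eq_one, PadicInt.ker_toZModPow, PadicInt.ker_toZMod,
    PadicInt.maximalIdeal_eq_span_p, pow_one]

theorem syO_dvd {R' : Type} [CommRing R'] (φ : ℤ_[p] →+* R') {q : ℤ_[p]}
    (hq : RingHom.ker φ = Ideal.span {q}) (m : ℕ) (y : GL (Fin 2) ℤ_[p]) {ι : Type} [Fintype ι]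
    (n : ι → ℤ_[p]) (i j : ι → Fin (2 * m + 1)) (c : ℤ_[p])
    (h : ∑ t, φ (n t) * syd m (GeneralLinearGroup.map φ y) (i t) (j t) = φ c) :
    algebraMap ℤ_[p] O q ∣
      ∑ t, algebraMap ℤ_[p] O (n t) * syO O m y (i t) (j t) - algebraMap ℤ_[p] O c := by
  simp only [Ap.syd_map, Matrix.map_apply, ← map_mul, ← map_sum, ← map_sub] at h ⊢
  refine map_dvd _ (Ideal.mem_span_singleton.1 (hq ▸ ?_))
  rw [RingHom.mem_ker, map_sub, h, sub_self]

theorem syO_one {n : ℕ} (m : ℕ) {y : GL (Fin 2) ℤ_[p]}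
    (h : GeneralLinearGroup.map (PadicInt.toZModPow n) y = 1) (i j : Fin (2 * m + 1)) :
    (p : O) ^ n ∣ (syO O m y - 1) i j := by
  have := syO_dvd (O := O) _ (PadicInt.ker_toZModPow n) m y (fun _ : Unit => 1) (fun _ => i)
    (fun _ => j) ((1 : Matrix _ _ ℤ_[p]) i j) (by
      by_cases e : i = j <;> simp [h, Matrix.one_apply, e])
  by_cases e : i = j <;> simpa [Matrix.one_apply, e] using this

theorem jK_inj : Injective (jK (p := p)) := fun a b h =>
  Units.ext (map_injective Subtype.val_injective (congrArg Units.val h))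

theorem jK_mul (y y' : GL (Fin 2) ℤ_[p]) : jK (y * y') = jK y * jK y' := map_mul _ _ _

theorem jK_inv (y : GL (Fin 2) ℤ_[p]) : jK y⁻¹ = (jK y)⁻¹ := map_inv _ _

theorem jK_one : jK (1 : GL (Fin 2) ℤ_[p]) = 1 := map_one _

theorem syO_mul (m : ℕ) (y y' : GL (Fin 2) ℤ_[p]) :
    syO O m (y * y') = syO O m y * syO O m y' := by rw [syO, map_mul, map_mul]

theorem syO_id (m : ℕ) : syO O m (1 : GL (Fin 2) ℤ_[p]) = 1 := by rw [syO, map_one, map_one]

theorem jK_cen {y : GL (Fin 2) ℤ_[p]} :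
    jK y ∈ Subgroup.center (G2 p) ↔ y ∈ Subgroup.center (GL (Fin 2) ℤ_[p]) := by
  simp only [GeneralLinearGroup.mem_center_iff_val_mem_range_scalar]
  constructor
  · rintro ⟨c, hc⟩
    refine ⟨y 0 0, Matrix.ext fun i j => Subtype.ext ?_⟩
    have h0 : c = y 0 0 := by simpa using congrFun (congrFun hc 0) 0
    have h1 : _ = ((y i j : ℤ_[p]) : ℚ_[p]) := congrFun (congrFun hc i) j
    rw [← h1, h0]
    by_cases e : i = j <;> simp [e]
  · rintro ⟨c, hc⟩
    refine ⟨c, Matrix.ext fun i j => ?_⟩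
    show _ = ((y i j : ℤ_[p]) : ℚ_[p])
    rw [← hc]
    by_cases e : i = j <;> simp [e]

theorem syO_cen (m : ℕ) {y : GL (Fin 2) ℤ_[p]} (h : y ∈ Subgroup.center (GL (Fin 2) ℤ_[p])) :
    syO O m y = 1 := by
  obtain ⟨c, hc⟩ := GeneralLinearGroup.mem_center_iff_val_mem_range_scalar.1 h
  rw [syO, Ap.syd_map, Ap.syd_scalar m hc.symm]
  exact Matrix.map_one _ (map_zero _) (map_one _)

theorem ex_cen {g : GL (Fin 2) (ZMod p)} (h : g ∈ Subgroup.center (GL (Fin 2) (ZMod p))) :
    ∃ y ∈ Subgroup.center (GL (Fin 2) ℤ_[p]), rd y = g := by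
  rw [GeneralLinearGroup.center_eq_range_scalar] at h ⊢
  obtain ⟨c, rfl⟩ := h
  obtain ⟨z, hz⟩ := ZMod.ringHom_surjective (PadicInt.toZMod (p := p)) c
  have u : IsUnit z := by
    by_contra k
    refine c.ne_zero ?_
    rw [← hz, ← RingHom.mem_ker, PadicInt.ker_toZMod]
    exact k
  refine ⟨_, ⟨u.unit, rfl⟩, Units.ext (Matrix.ext fun i j => ?_)⟩
  by_cases e : i = j <;> simp [GeneralLinearGroup.scalar, e, hz]

variable {J M : Type} [Fintype J] [DecidableEq J] [AddCommGroup M] [Module O M]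
  (a : (J → G2 p) →* Module.End O M) (m : ℕ)

/-- the action of the integral matrices -/
def ta : (J → GL (Fin 2) ℤ_[p]) →* Module.End O ((J → Fin (2 * m + 1)) → M) where
  toFun y := tp (kr fun k => syO O m (y k)) (a fun k => jK (y k))
  map_one' := by
    simp only [Pi.one_apply, syO_id, jK_one]
    rw [← tp_one, ← map_one a, ← map_one (kr (ι := J))]
    rfl
  map_mul' y y' := by
    simp only [Pi.mul_apply, syO_mul, jK_mul]
    rw [← tp_mul, ← map_mul, ← map_mul]
    rfl

theorem ta_single (k : J) (y : GL (Fin 2) ℤ_[p]) :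
    ta a m (Pi.mulSingle k y) = L k (syO O m y) (pl a k (jK y)) := by
  have e1 : (fun k' => syO O m (Pi.mulSingle (M := fun _ => GL (Fin 2) ℤ_[p]) k y k')) =
      Pi.mulSingle k (syO O m y) := funext fun k' =>
    Pi.apply_mulSingle (fun _ => syO O m) (fun _ => syO_id m) k y k'
  have e2 : (fun k' => jK (Pi.mulSingle (M := fun _ => GL (Fin 2) ℤ_[p]) k y k')) =
      Pi.mulSingle k (jK y) := funext fun k' =>
    Pi.apply_mulSingle (fun _ => jK) (fun _ => jK_one) k y k'
  show tp _ _ = _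
  rw [e1, e2]
  rfl

/-- the vectors of level `p` -/
def Yl : Submodule O ((J → Fin (2 * m + 1)) → M) where
  carrier := {x | ∀ y, (∀ k, rd (y k) = 1) → ta a m y x = x}
  add_mem' hx hy y h := by rw [map_add, hx y h, hy y h]
  zero_mem' y h := map_zero _
  smul_mem' c x hx y h := by rw [map_smul, hx y h]

/-- the socle of level `p` -/
def Wl : Submodule O M where
  carrier := {w | p • w = 0 ∧ ∀ y : J → GL (Fin 2) ℤ_[p], (∀ k, rd (y k) = 1) →
    a (fun k => jK (y k)) w = w}
  add_mem' hx hy := ⟨by rw [smul_add, hx.1, hy.1, add_zero],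
    fun y h => by rw [map_add, hx.2 y h, hy.2 y h]⟩
  zero_mem' := ⟨smul_zero _, fun y h => map_zero _⟩
  smul_mem' c x hx := ⟨by rw [smul_comm, hx.1, smul_zero], fun y h => by rw [map_smul, hx.2 y h]⟩

/-- the projector of the type at one place -/
def ek (c : GL (Fin 2) (ZMod p) → O) (k : J) : Module.End O ((J → Fin (2 * m + 1)) → M) :=
  ∑ g, c g • ta a m (Pi.mulSingle k (lfK g))

variable {a m} {c : GL (Fin 2) (ZMod p) → O} {e : O}

theorem Yl_ta {x : (J → Fin (2 * m + 1)) → M} (hx : x ∈ Yl a m) (y : J → GL (Fin 2) ℤ_[p]) :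
    ta a m y x ∈ Yl a m := fun u hu => by
  rw [← Module.End.mul_apply, ← map_mul, show u * y = y * (y⁻¹ * u * y) by group, map_mul,
    Module.End.mul_apply, hx _ fun k => by simp [hu k]]

theorem Yl_ek {x : (J → Fin (2 * m + 1)) → M} (hx : x ∈ Yl a m) (k : J) : ek a m c k x ∈ Yl a m := by
  rw [ek, LinearMap.sum_apply]
  exact sum_mem fun g _ => Submodule.smul_mem _ _ (Yl_ta hx _)

theorem rd_single (k : J) {y : GL (Fin 2) ℤ_[p]} (h : rd y = 1) (k' : J) :
    rd (Pi.mulSingle (M := fun _ => GL (Fin 2) ℤ_[p]) k y k') = 1 := by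
  by_cases e : k' = k
  · rw [e, Pi.mulSingle_eq_same, h]
  · rw [Pi.mulSingle_eq_of_ne e, map_one]

theorem ek_ek (h : Idc c e) {x : (J → Fin (2 * m + 1)) → M} (hx : x ∈ Yl a m) (k : J) :
    ek a m c k (ek a m c k x) = e • ek a m c k x := by
  have k1 : ∀ g u, ta a m (Pi.mulSingle k (lfK g)) (ta a m (Pi.mulSingle k (lfK (g⁻¹ * u))) x) =
      ta a m (Pi.mulSingle k (lfK u)) x := fun g u => by
    rw [← Module.End.mul_apply, ← map_mul, ← Pi.mulSingle_mul, ← mul_inv_cancel_left (lfK u)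
      (lfK g * _), Pi.mulSingle_mul, map_mul, Module.End.mul_apply, hx _ (rd_single k (by
        simp only [map_mul, map_inv, lfK_spec]; group))]
  simp only [ek, LinearMap.sum_apply, LinearMap.smul_apply, map_sum, map_smul, Finset.smul_sum,
    smul_smul, ← h.conv, Finset.sum_smul]
  rw [Finset.sum_comm, Finset.sum_comm (f := fun u g => (c g * c (g⁻¹ * u)) • _)]
  refine Finset.sum_congr rfl fun g _ => ?_
  rw [← Equiv.sum_comp (Equiv.mulLeft g⁻¹)]
  exact Finset.sum_congr rfl fun u _ => by rw [Equiv.coe_mulLeft, k1, mul_comm (c g)]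

theorem mem_Sol {x : (J → Fin (2 * m + 1)) → M} (hx : x ∈ Yl a m)
    (h : ∀ k, ek a m c k x = e • x) : x ∈ Sol (pl a) m c e := by
  have k1 : ∀ k y α i, tw1 (pl a k) m y (fun i => x (update α k i)) i =
      ta a m (Pi.mulSingle k y) x (update α k i) := fun k y α i => by
    simp only [ta_single, L_apply, tw1, update_self, update_idem]
  refine ⟨fun _ => trivial, fun k _ α => mem_rel.2 ⟨fun y hy => funext fun i => ?_, ?_⟩⟩
  · rw [k1, hx _ (rd_single k ((rd_iff y).1 hy))]
  · rintro _ ⟨rfl⟩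
    funext i
    have := congrFun (h k) (update α k i)
    simpa only [ek, LinearMap.sum_apply, LinearMap.smul_apply, Finset.sum_apply, Pi.smul_apply,
      k1] using this

theorem pl_comm {k k' : J} (h : k ≠ k') (g g' : G2 p) : Commute (pl a k g) (pl a k' g') :=
  (Pi.mulSingle_commute (f := fun _ : J => G2 p) h g g').map a

theorem sand (hc : ∀ z ∈ Subgroup.center (J → G2 p), a z = 1)
    {n : Fin (2 * m + 1) → Fin (2 * m + 1) → ZMod p} (hn : ∀ g : GL (Fin 2) (ZMod p),
      (g ∈ Subgroup.center _ → ∑ j, ∑ k, n j k * syd m g j k = 1) ∧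
      (g ∉ Subgroup.center _ → ∑ j, ∑ k, n j k * syd m g j k = 0)) (k : J) (i : Fin (2 * m + 1))
    {x : (J → Fin (2 * m + 1)) → M} (hx : ∀ α, x α ∈ Wl a) :
    ∑ t : Fin (2 * m + 1) × Fin (2 * m + 1), ((n t.1 t.2).val : O) •
      L k (single i t.1 (1 : O)) 1 (ek a m c k (L k (single t.2 i (1 : O)) 1 x)) =
      (∑ z : (ZMod p)ˣ, c (GeneralLinearGroup.scalar (Fin 2) z)) • L k (single i i (1 : O)) 1 x := by
  classical
  funext α
  have k0 := L_unit k (1 : Matrix _ _ O) 1 i i i x α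
  rw [show L k (1 : Matrix _ _ O) (1 : Module.End O M) = 1 by
    rw [L, Pi.mulSingle_one, map_one, tp_one], Module.End.one_apply, ← Module.End.mul_apply, L,
    ← tp_mul, ← map_mul, ← Pi.mulSingle_mul, single_mul_single_same, one_mul, one_mul, ← L] at k0
  simp only [ek, LinearMap.sum_apply, LinearMap.smul_apply, map_sum, map_smul, Finset.sum_apply,
    Pi.smul_apply, ta_single, L_unit, k0]
  split_ifs
  swap
  · simp
  simp only [Finset.smul_sum, smul_comm _ (c _)]
  rw [Finset.sum_comm]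
  simp only [← Finset.smul_sum, smul_smul (_ : O) (syO O m _ _ _), ← Finset.sum_smul]
  have k1 : ∀ (g : GL (Fin 2) (ZMod p)) (b : ℤ_[p]), ∑ j, ∑ k, n j k * syd m g j k =
      PadicInt.toZMod b → (∑ t : Fin (2 * m + 1) × Fin (2 * m + 1), ((n t.1 t.2).val : O) *
        syO O m (lfK g) t.1 t.2) • pl a k (jK (lfK g)) (x α) =
        algebraMap ℤ_[p] O b • pl a k (jK (lfK g)) (x α) := fun g b hb => by
    obtain ⟨d, hd⟩ := syO_dvd (O := O) PadicInt.toZMod
      (PadicInt.ker_toZMod.trans PadicInt.maximalIdeal_eq_span_p) m (lfK g)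
      (fun t : Fin (2 * m + 1) × Fin (2 * m + 1) => ((n t.1 t.2).val : ℤ_[p])) Prod.fst Prod.snd b
      (by simp only [lfK_spec, map_natCast, ZMod.natCast_zmod_val, Fintype.sum_prod_type, hb])
    simp only [map_natCast] at hd
    rw [← sub_eq_zero, ← sub_smul, hd, mul_comm, mul_smul, ← map_smul, Nat.cast_smul_eq_nsmul,
      (hx α).1, map_zero, smul_zero]
  rw [one_apply_eq, one_smul, Module.End.one_apply, Finset.sum_smul]
  refine (Fintype.sum_of_injective (GeneralLinearGroup.scalar (Fin 2))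
    (Units.map_injective fun _ _ => Matrix.scalar_inj.1) _ _ (fun g hg => ?_) fun z => ?_).symm
  · rw [k1 g 0 (by
      rw [map_zero]
      exact (hn g).2 (by rwa [GeneralLinearGroup.center_eq_range_scalar])), map_zero, zero_smul,
      smul_zero]
  · have hz : GeneralLinearGroup.scalar (Fin 2) z ∈ Subgroup.center (GL (Fin 2) (ZMod p)) := by
      rw [GeneralLinearGroup.center_eq_range_scalar]; exact ⟨z, rfl⟩
    obtain ⟨y, y1, y2⟩ := ex_cen hz
    rw [k1 _ 1 (by rw [map_one]; exact (hn _).1 hz), map_one, one_smul,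
      ← mul_inv_cancel_left y (lfK _), jK_mul, map_mul, Module.End.mul_apply]
    have k2 : pl a k (jK y) = 1 := hc _ (by
      rw [Subgroup.center_pi]
      intro k' _
      show Pi.mulSingle (M := fun _ => G2 p) k (jK y) k' ∈ Subgroup.center (G2 p)
      by_cases e : k' = k
      · rw [e, Pi.mulSingle_eq_same]; exact jK_cen.2 y1
      · rw [Pi.mulSingle_eq_of_ne e]; exact one_mem _)
    have k3 := (hx α).2 _ (rd_single k (y := y⁻¹ * lfK (GeneralLinearGroup.scalar (Fin 2) z))
      (by rw [map_mul, map_inv, y2, lfK_spec, inv_mul_cancel]))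
    rw [funext fun k' => Pi.apply_mulSingle (fun _ => jK) (fun _ => jK_one) k _ k'] at k3
    rw [k2, Module.End.one_apply]
    exact congrArg _ k3.symm

theorem ex_E (h : Idc c e) (hc : ∀ z ∈ Subgroup.center (J → G2 p), a z = 1)
    {n : Fin (2 * m + 1) → Fin (2 * m + 1) → ZMod p} (hn : ∀ g : GL (Fin 2) (ZMod p),
      (g ∈ Subgroup.center _ → ∑ j, ∑ k, n j k * syd m g j k = 1) ∧
      (g ∉ Subgroup.center _ → ∑ j, ∑ k, n j k * syd m g j k = 0)) (s : Finset J) :
    ∃ E : Module.End O ((J → Fin (2 * m + 1)) → M),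
      (∀ x ∈ Yl a m, E x ∈ Yl a m ∧ ∀ k ∈ s, ek a m c k (E x) = e • E x) ∧
      (∀ k ∉ s, ∀ S g, Commute (L k S (pl a k g)) E) ∧
      ((∀ x, (∀ α, x α ∈ Wl a) → E x = 0) → ∀ x : (J → Fin (2 * m + 1)) → M,
        (∀ α, x α ∈ Wl a) → x = 0) := by
  induction s using Finset.induction_on with
  | empty => exact ⟨1, fun x hx => ⟨hx, by simp⟩, fun _ _ _ _ => Commute.one_right _, id⟩
  | insert k s hk ih =>
    obtain ⟨E, h1, h2, h3⟩ := ih
    have c1 : Commute (ek a m c k) E := Commute.sum_left _ _ _ fun g _ =>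
      (ta_single a m k _ ▸ h2 k hk _ _ :).smul_left _
    have c2 : ∀ (S : Matrix _ _ O) y, L k S 1 (E y) = E (L k S 1 y) := fun S y => by
      have := LinearMap.congr_fun (h2 k hk S 1).eq y
      rwa [map_one] at this
    have st : ∀ (S : Matrix _ _ O) (x : (J → Fin (2 * m + 1)) → M), (∀ α, x α ∈ Wl a) →
        ∀ α, L k S 1 x α ∈ Wl a :=
      fun S x hx α => by
        rw [L_apply]
        exact sum_mem fun j _ => Submodule.smul_mem _ _ (hx _)
    refine ⟨E * ek a m c k, fun x hx => ⟨(h1 _ (Yl_ek hx k)).1, fun k' hk' => ?_⟩,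
      fun k' hk' S g => ?_, fun H => h3 fun x hx => ?_⟩
    · rcases Finset.mem_insert.1 hk' with rfl | hk'
      · rw [Module.End.mul_apply, ← Module.End.mul_apply _ E, c1.eq, Module.End.mul_apply,
          ek_ek h hx, map_smul]
      · exact (h1 _ (Yl_ek hx k)).2 k' hk'
    · rw [Finset.mem_insert, not_or] at hk'
      exact (h2 k' hk'.2 S g).mul_right (Commute.sum_right _ _ _ fun g' _ =>
        (ta_single a m k _ ▸ L_comm hk'.1 _ _ (pl_comm hk'.1 _ _) :).smul_right _)
    · funext α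
      have k1 := congrArg E (sand (c := c) hc hn k (α k) hx)
      rw [map_sum, Finset.sum_eq_zero fun t _ => by
        rw [map_smul, ← c2, show E (ek a m c k _) = 0 from H _ (st (single t.2 (α k) 1) x hx),
          map_zero, smul_zero],
        map_smul, eq_comm, h.unit.smul_eq_zero, ← c2] at k1
      simpa [L_apply, single_apply] using congrFun k1 α

theorem ex_z {w : M} (w0 : w ≠ 0) (w1 : p • w = 0) (w2 : ∀ g ∈ KJ p J 1, a g w = w)
    (hD : ∀ n, 0 < n → Tl.DT p (a.comp (KJ p J 1).subtype) ((NJ p J n).subgroupOf (KJ p J 1)))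
    (k : ℕ) (α : J → Fin (2 * m + 1)) : ∃ z ∈ Yl a m, p ^ k • z = Pi.single α w := by
  classical
  obtain ⟨w', a1, a2⟩ : ∃ w', (∀ g : KJ p J 1, a g w' = w') ∧ p ^ k • w' = w := by
    induction k with
    | zero => exact ⟨w, fun g => w2 g g.2, by simp⟩
    | succ k ih =>
      obtain ⟨u, u1, u2⟩ := ih
      obtain ⟨v, v1, v2⟩ := (hD 1 one_pos).div u u1
      exact ⟨v, v1, by rw [pow_succ, mul_smul, v2, u2]⟩
  obtain ⟨v, v1, v2, v3⟩ := (hD (k + 1) k.succ_pos).tro (k + 1) w' a1
    (by rw [pow_succ', mul_smul, a2, w1])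
  set N := (NJ p J (k + 1)).subgroupOf (KJ p J 1)
  have fin : Finite (KJ p J 1 ⧸ N) := by
    refine Set.finite_univ_iff.1 (by_contra fun c => w0 ?_)
    rw [← a2, ← v3]
    by_cases v0 : v = 0
    · simp [Tl.trN, v0]
    rw [Tl.trN, finsum_of_infinite_support (Set.Infinite.mono (fun q _ z => v0 ?_) c), smul_zero]
    have := congrArg ((a.comp (KJ p J 1).subtype) q.out⁻¹) z
    rwa [← Module.End.mul_apply, ← map_mul, inv_mul_cancel, map_one, map_zero] at this
  have := Fintype.ofFinite (KJ p J 1 ⧸ N)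
  choose l l1 l2 using fun (u : KJ p J 1) k => mem_Kn_iff.1 (u.2 k trivial)
  let lh : KJ p J 1 →* (J → GL (Fin 2) ℤ_[p]) := MonoidHom.mk' l fun u u' => funext fun k =>
    jK_inj (by rw [Pi.mul_apply, jK_mul, l2, l2, l2]; rfl)
  let τ := (ta a m).comp lh
  have t1 : ∀ (u : KJ p J 1) (n : ℕ) (v : M), p ^ n • v = 0 →
      (∀ k i j, (p : O) ^ n ∣ (syO O m (l u k) - 1) i j) →
      τ u (Pi.single α v) = Pi.single α (a u v) := fun u n v hv hu => by
    have e : (fun k => jK (l u k)) = u := funext (l2 u)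
    show tp (kr fun k => syO O m (l u k)) (a fun k => jK (l u k)) _ = _
    rw [e]
    refine tp_single α fun β => ?_
    obtain ⟨d, hd⟩ := kr_sub hu β α
    rw [hd, mul_comm, mul_smul, ← map_smul, ← Nat.cast_pow, Nat.cast_smul_eq_nsmul, hv, map_zero,
      smul_zero]
  have t2 : ∀ u ∈ N, τ u (Pi.single α v) = Pi.single α v := fun u hu => by
    rw [t1 u (k + 1) v v2 fun k' => ?_]
    · exact congrArg _ (v1 u hu)
    obtain ⟨g, hg, z, hz, e⟩ := Subgroup.mem_sup_of_normal_right.1 (hu k' trivial)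
    obtain ⟨y, y1, rfl⟩ := mem_Kn_iff.1 hg
    have y2 : y⁻¹ * l u k' ∈ Subgroup.center _ := jK_cen.1 (by
      rw [jK_mul, jK_inv, l2, show u.1 k' = _ from e.symm, inv_mul_cancel_left]
      exact hz)
    rw [← mul_inv_cancel_left y (l u k'), syO_mul, syO_cen m y2, mul_one]
    exact syO_one m y1
  refine ⟨Tl.trN τ N (Pi.single α v), fun y hy => ?_, ?_⟩
  · let u : KJ p J 1 := ⟨fun k => jK (y k), fun k _ => mem_Kn_iff.2 ⟨_, (rd_iff _).2 (hy k), rfl⟩⟩
    have e : lh u = y := funext fun k => jK_inj (l2 u k)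
    rw [← e, Tl.trN, finsum_eq_sum_of_fintype, map_sum]
    refine Fintype.sum_equiv (MulAction.toPerm u) _ _ fun q => ?_
    have := Tl.out_eq (ρ := τ) t2 (u * q.out)
    rw [map_mul] at this
    rw [MulAction.toPerm_apply, ← MulAction.Quotient.coe_smul_out]
    exact this.symm
  · rw [← a2, ← v3, Tl.trN, Tl.trN, finsum_eq_sum_of_fintype, finsum_eq_sum_of_fintype,
      Finset.smul_sum, Finset.smul_sum, ← LinearMap.single_apply O _ (∑ _, _), map_sum]
    refine Finset.sum_congr rfl fun q _ => ?_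
    rw [← map_nsmul, ← map_nsmul, ← Pi.single_smul, t1 _ 1 _
      (by rw [← mul_smul, ← pow_add, add_comm, v2]) fun k' => syO_one m (l1 _ k')]
    rfl

end Nz

open Nz in
/-- **NZA** -/
theorem nza : NZA := by
  intro p _ O J M _ _ _ _ _ _ _ _ a c e hp _ h hc hD ⟨w, w0, w1, w2⟩
  obtain ⟨m, hm, n, hn⟩ := mc (ZMod p)
  obtain ⟨E, h1, -, h3⟩ := ex_E (a := a) h hc hn Finset.univ
  obtain ⟨x, x1, x2⟩ : ∃ x, (∀ α, x α ∈ Wl a) ∧ E x ≠ 0 := by
    by_contra! k
    exact w0 (congrFun (h3 k (fun _ => w) fun _ => ⟨w1, fun y hy => w2 _ fun k _ =>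
      mem_Kn_iff.2 ⟨_, (rd_iff _).2 (hy k), rfl⟩⟩) 0)
  obtain ⟨α, hα⟩ : ∃ α, E (Pi.single α (x α)) ≠ 0 := by
    by_contra! k
    exact x2 (by rw [← Finset.univ_sum_single x, map_sum, Finset.sum_eq_zero fun α _ => k α])
  refine ⟨m, hm, fun o ho => ?_⟩
  obtain ⟨k, d, hd⟩ := dvd_pow_p hp ho
  obtain ⟨z, z1, z2⟩ := ex_z (m := m) (w := x α) (fun e => hα (by simp [e])) (x1 α).1 (fun g hg => by
    choose l l1 l2 using fun k => mem_Kn_iff.1 (hg k trivial)
    exact funext l2 ▸ (x1 α).2 l fun k => (rd_iff _).1 (l1 k)) hD k α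
  refine ⟨E z, mem_Sol (h1 z z1).1 fun k => (h1 z z1).2 k (Finset.mem_univ k), ?_⟩
  by_contra! k0
  refine hα ?_
  rw [← z2, map_nsmul, ← Nat.cast_smul_eq_nsmul O, Nat.cast_pow, hd, mul_comm o, mul_smul,
    show o • E z = 0 from funext k0, smul_zero]

end Vale.Agent.P022K.LF
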