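import Vale.Agent.P022K.RT.TwlT

/-!
# P022K, block LF: divisibility and traces at principal congruence levels
-/

set_option linter.all false

noncomputable section

namespace Vale.Agent.P022K.RT.Tl

open IsLocalRing Module Vale.Agent.P022 Vale.Agent.P022.C CH Sh Top Top.Si
open Vale.Agent.P022K.WB (Kn G2)

theorem ex_fix' {p : ℕ} [Fact p.Prime] {K R V : Type} [Group K] [CommRing R] [AddCommGroup V]
    [Module R V] (ρ : K →* End R V) (N : Subgroup K) [N.Normal] (idx : ∃ m, N.index = p ^ m)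
    {v : V} (v0 : v ≠ 0) (hp : p • v = 0) (hv : ∀ g ∈ N, ρ g v = v) :
    ∃ w, w ≠ 0 ∧ p • w = 0 ∧ ∀ g, ρ g w = w := by
  obtain ⟨m, hm⟩ := idx
  have : Finite (K ⧸ N) :=
    Subgroup.index_ne_zero_iff_finite.1 (hm ▸ pow_ne_zero m (Fact.out : p.Prime).ne_zero)
  let σ0 := rst ρ (Fx ρ N) (MonoidHom.id K) fun g v hv => fx_nor hv g
  let σ : K ⧸ N →* End R (Fx ρ N) := QuotientGroup.lift N σ0 fun g hg =>
    LinearMap.ext fun v => Subtype.ext (v.2 g hg)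
  obtain ⟨w, h1, h2, h3⟩ := ex_fix (IsPGroup.of_card hm) σ (LinearMap.ker (p • LinearMap.id))
    (fun q v hv => show p • σ q v = 0 by rw [← map_nsmul, show p • v = 0 from hv, map_zero])
    (fun v hv => hv) ((Submodule.ne_bot_iff _).2 ⟨⟨v, hv⟩, Subtype.ext hp,
      fun e => v0 (congrArg Subtype.val e)⟩)
  exact ⟨w, fun e => h2 (Subtype.ext e), congrArg Subtype.val h1,
    fun g => congrArg Subtype.val (h3 (g : K ⧸ N))⟩

variable (p : ℕ) [Fact p.Prime]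

/-- the principal congruence subgroups -/
abbrev Kj (J : Type) (n : ℕ) : Subgroup (J → G2 p) := Subgroup.pi Set.univ fun _ => Kn p n

/-- the same with the centre -/
abbrev Nj (J : Type) (n : ℕ) : Subgroup (J → G2 p) :=
  Subgroup.pi Set.univ fun _ => Kn p n ⊔ Subgroup.center (G2 p)

theorem nj_nor (J : Type) (c n : ℕ) : ((Nj p J n).subgroupOf (Kj p J c)).Normal :=
  ⟨fun x hx g k _ => by
    obtain ⟨y, hy, z, hz, e⟩ := Subgroup.mem_sup_of_normal_right.1 (hx k trivial)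
    show g.1 k * x.1 k * (g.1 k)⁻¹ ∈ _
    rw [show x.1 k = y * z from e.symm, mul_assoc, mul_assoc, ← Subgroup.mem_center_iff.1 hz,
      ← mul_assoc, ← mul_assoc]
    refine mul_mem (Subgroup.mem_sup_left ?_) (Subgroup.mem_sup_right hz)
    simpa only [inv_inv] using WB.Kn_conj (inv_mem (WB.Kn_anti c.zero_le (g.2 k trivial))) hy⟩

theorem nj_idx (J : Type) [Finite J] {c : ℕ} (hc : 0 < c) (n : ℕ) :
    ∃ m, ((Nj p J n).subgroupOf (Kj p J c)).index = p ^ m := by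
  have := nj_nor p J c n
  have h1 : (Kn p n).relIndex (Kn p 0) ≠ 0 := by
    obtain ⟨S, a1, a2⟩ := WB.Kn_fin (p := p) n
    refine Subgroup.index_ne_zero_iff_finite.2 (Finite.of_surjective
      (fun s : S => ((⟨s, a1 s s.2⟩ : Kn p 0) : Kn p 0 ⧸ (Kn p n).subgroupOf (Kn p 0))) fun q => ?_)
    obtain ⟨s, b1, b2⟩ := a2 q.out q.out.2
    exact ⟨⟨s, b1⟩, Eq.trans (QuotientGroup.eq.2 (by exact b2)) (QuotientGroup.out_eq' q)⟩
  have h2 : (⨅ k : J, (Kn p n).comap ((Pi.evalMonoidHom (fun _ => G2 p) k).comp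
      (Kj p J c).subtype)).index ≠ 0 := Subgroup.index_iInf_ne_zero fun k => by
    rw [Subgroup.index_comap]
    refine fun e => h1 (Subgroup.relIndex_eq_zero_of_le_right ?_ e)
    rintro _ ⟨g, rfl⟩
    exact WB.Kn_anti c.zero_le (g.2 k trivial)
  have : Finite (Kj p J c ⧸ (Nj p J n).subgroupOf (Kj p J c)) :=
    Subgroup.index_ne_zero_iff_finite.1 fun e => h2 (zero_dvd_iff.1 (e ▸ Subgroup.index_dvd_of_le
      fun x hx k _ => Subgroup.mem_sup_left (Subgroup.mem_iInf.1 hx k)))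
  refine IsPGroup.iff_card.1 fun q => ⟨n + 1, ?_⟩
  obtain ⟨g, rfl⟩ := QuotientGroup.mk_surjective q
  rw [← QuotientGroup.mk_pow, QuotientGroup.eq_one_iff]
  exact fun k _ => Subgroup.mem_sup_left (WB.Kn_anti n.le_succ
    (WB.pow_mem_Kn (WB.Kn_le_I1 hc (g.2 k trivial)) n))

variable {p} {O : Type} [CommRing O] [Algebra ℤ_[p] O] {Z : Si p O}

theorem xp_Y0 [IsLocalRing O] (h : Z.Ok) (t : Z.H → O) (g : Z.J → G2 p) :
    ∀ v ∈ Y0 Z t, Z.a (xp h g) v ∈ Y0 Z t := fun v hv =>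
  have k := (nts h Set.finite_empty).xp g
  ⟨k.fv v hv.1, k.mm h hv.1 hv.2⟩

theorem levj (h : Z.Ok) (c n : ℕ) {N : Subgroup (Kj p Z.J c)}
    (hN : (Nj p Z.J n).subgroupOf (Kj p Z.J c) ≤ N) :
    Z.aw ∅ ⊔ Z.T.Z ⊔ N.map ((xp h).comp (Kj p Z.J c).subtype) ∈ Z.T.Nl := by
  refine lev_of h Set.finite_empty (sup_le (sup_le (fun y hy => (mem_aw.1 hy).1) (z_le h)) ?_)
    (le_sup_left.trans le_sup_left) (le_sup_right.trans le_sup_left)
    (fun k => ⟨n + c, fun y hy => ?_⟩) fun _ e => e.elim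
  · rintro _ ⟨g, -, rfl⟩
    refine xp_mem h fun k => (h.atx k).1 _ ?_
    obtain ⟨x, -, e⟩ : g.1 k ∈ Km ℤ_[p] ℚ_[p] c := (Km_eq p _).symm ▸ g.2 k trivial
    exact ⟨x, e⟩
  · rw [Km_eq] at hy
    have : ∀ m ≤ n + c, Pi.mulSingle k y ∈ Kj p Z.J m := fun m hm v _ => by
      by_cases e : v = k
      · subst e
        rw [Pi.mulSingle_eq_same]
        exact WB.Kn_anti hm hy
      · rw [Pi.mulSingle_eq_of_ne e]
        exact (Kn p m).one_mem
    exact Subgroup.mem_sup_right ⟨⟨_, this c (by omega)⟩, hN fun v _ => Subgroup.mem_sup_left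
      (this n (by omega) v trivial), xp_single h k y⟩

/-- **divisibility and traces at the level `K(p ^ c)`** -/
theorem dtj [IsLocalRing O] (h : Z.Ok) (t : Z.H → O) {c : ℕ} (hc : 0 < c) (n : ℕ) {R Y : Type}
    [CommRing R] [AddCommGroup Y] [Module O Y] [Module R Y] {ρ : Kj p Z.J c →* End R Y}
    {φ : Y →ₗ[O] Z.M} (e : Emb Z.a (Y0 Z t) ((xp h).comp (Kj p Z.J c).subtype) ρ φ) :
    DT p ρ ((Nj p Z.J n).subgroupOf (Kj p Z.J c)) := by
  have := nj_nor p Z.J c n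
  have fv : ∀ v, v ∈ Fv Z.a (Z.aw ∅ ⊔ Z.T.Z) ↔ v ∈ Z.Mp := fun v =>
    fv_sup.trans (and_iff_left (fv_z h v))
  refine dt_emb h.cc ((xp h).comp (Kj p Z.J c).subtype) (H := Z.aw ∅ ⊔ Z.T.Z) (fun k y hy =>
    mem_cj.1 (le_cj le_rfl (fun y hy => (sup_le (fun y hy =>
      Subgroup.mem_centralizer_singleton_iff.2 (xp_com h (mem_aw.1 hy).2.1 _).eq)
      (fun y hy => Subgroup.center_le_centralizer _ (h.ok.zc hy)) :
        _ ≤ Subgroup.centralizer {xp h k.1}) hy _ rfl) hy))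
    ((Nj p Z.J n).subgroupOf (Kj p Z.J c)) (nj_idx p _ hc n)
    (Fact.out : p.Prime).ne_zero (fun x hx k _ => Subgroup.mem_sup_right ?_) (levj h c n le_top)
    (levj h c n le_rfl) (fun s => Z.tg s - t s • 1) (fun s v hv => sub_mem (h.ok1.tg_mem hv s)
      (Submodule.smul_mem _ _ hv)) (fun s s' v hv => ?_) (fun s k v _ => ?_)
    (fun v => and_congr (fv v).symm (Submodule.mem_iInf _)) e
  · have := (sup_le (fun y hy => by
      rw [Subgroup.mem_comap, (mem_aw.1 hy).2.1 k]; exact one_mem _) (Z.x k).cen' :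
        _ ≤ (Zl ℚ_[p]).comap (Z.x k).π) hx
    rwa [Subgroup.mem_comap, MonoidHom.comp_apply, xp_x] at this
  · simp only [LinearMap.sub_apply, LinearMap.smul_apply, Module.End.one_apply, map_sub, map_smul,
      smul_sub]
    rw [h.ok1.tg_tg Set.finite_empty ((fv v).1 hv), smul_comm (t s) (t s') v]
    abel
  · simp only [LinearMap.sub_apply, LinearMap.smul_apply, Module.End.one_apply, map_sub, map_smul,
      h.ok1.a_tg]

theorem xp_sm (h : Z.Ok) (v : Z.M) : ∃ n, ∀ x ∈ Nj p Z.J n, Z.a (xp h x) v = v := by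
  obtain ⟨U, hU, hv⟩ := h.cc.sm v
  choose m hm using fun k => (Z.x k).op U hU.1
  refine ⟨Finset.univ.sup m, fun x hx => hv _ (xp_mem h fun k => ?_)⟩
  refine (sup_le (fun y hy => hm k ?_) (fun z hz => (sInf_le hU.1 : Z.T.Z ≤ U) ((Z.x k).cen z hz)) :
    _ ≤ U.comap (Z.x k).ι) (hx k trivial)
  rw [Km_eq]
  exact WB.Kn_anti (Finset.le_sup (f := m) (Finset.mem_univ k)) hy

theorem ex_ptor {M : Type} [AddCommGroup M] {v : M} (v0 : v ≠ 0) (h : ∃ k, p ^ k • v = 0) :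
    ∃ j, p ^ j • v ≠ 0 ∧ p • p ^ j • v = 0 := by
  obtain ⟨k, hk⟩ := h
  induction k with
  | zero => exact (v0 (by simpa using hk)).elim
  | succ k ih =>
    by_cases e : p ^ k • v = 0
    exacts [ih e, ⟨k, e, by rwa [← mul_smul, ← pow_succ']⟩]

theorem nzs0 [IsLocalRing O] (h : Z.Ok) (t : Z.H → O) :
    ∃ a : (Z.J → G2 p) →* End O (Y0 Z t), (∀ g v, (a g v : Z.M) = Z.a (xp h g) v) ∧
      (∀ k g v, (a (Pi.mulSingle k g) v : Z.M) = Z.ap k g v) ∧
      (∀ z ∈ Subgroup.center (Z.J → G2 p), a z = 1) ∧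
      (∀ c, 0 < c → ∀ n, DT p (a.comp (Kj p Z.J c).subtype)
        ((Nj p Z.J n).subgroupOf (Kj p Z.J c))) ∧
      (Y0 Z t ≠ ⊥ → ∀ c, 0 < c →
        ∃ w : Y0 Z t, w ≠ 0 ∧ p • w = 0 ∧ ∀ g ∈ Kj p Z.J c, a g w = w) := by
  refine ⟨rst Z.a _ (xp h) (xp_Y0 h t), fun _ _ => rfl, fun k g v => congrArg (Z.a · v.1)
    (xp_single h k g), fun z hz => LinearMap.ext fun v => Subtype.ext ?_, fun c hc n => dtj h t hc n
      (φ := (Y0 Z t).subtype) ⟨(emb_rst _ _ _ (xp_Y0 h t)).inj, (emb_rst _ _ _ (xp_Y0 h t)).rng,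
        fun _ _ => rfl⟩, fun h0 c hc => ?_⟩
  · refine fv_z h v _ (xp_mem h fun k => (Z.x k).cen _ (Subgroup.mem_center_iff.2 fun g => ?_))
    simpa using congrFun (Subgroup.mem_center_iff.1 hz (Pi.mulSingle k g)) k
  · obtain ⟨v, hv, v0⟩ := (Submodule.ne_bot_iff _).1 h0
    obtain ⟨j, a1, a2⟩ := ex_ptor v0 (h.cc.tor v)
    obtain ⟨n, hn⟩ := xp_sm h (p ^ j • v)
    have := nj_nor p Z.J c n
    obtain ⟨w, b1, b2, b3⟩ := ex_fix' ((rst Z.a _ (xp h) (xp_Y0 h t)).comp (Kj p Z.J c).subtype)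
      _ (nj_idx p _ hc n) (v := ⟨p ^ j • v, nsmul_mem hv _⟩) (fun e => a1 (congrArg Subtype.val e))
      (Subtype.ext a2) fun g hg => Subtype.ext (hn g hg)
    exact ⟨w, b1, b2, fun g hg => b3 ⟨g, hg⟩⟩

end Vale.Agent.P022K.RT.Tl
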