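import Vale.Agent.P022K.LF.St
import Vale.Agent.P022K.LF.Nzs0

/-!
# P022K, block LF: row NZS
-/

namespace Vale.Agent.P022K.LF

/-- **row NZS** -/
theorem nzs : NZS := fun _ _ _ _ _ _ _ _ t h _ _ =>
  have ⟨a, _, h1, h2, h3, h4⟩ := RT.Tl.nzs0 h t
  ⟨a, h1, h2, fun n _ => h3 1 one_pos n, fun e => h4 e 1 one_pos⟩

end Vale.Agent.P022K.LF
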