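import Vale.Agent.P022K.LF.St
import Vale.Agent.P022K.RT.Bigp

/-!
# P022K, block LF: the two transfers on the patched module (statements)
-/

set_option linter.all false

noncomputable section

namespace Vale.Agent.P022K.LF

open IsLocalRing
open Vale.Agent.P022
open Vale.Agent.P022D.L2b (M2)
open Vale.Agent.P022D.Core (PS)
open Vale.Agent.P022E.GW (Ov)
open Vale.Agent.P022K.PL (Cf)
open Vale.Agent.P022K.RT
open Vale.Agent.P022K.WB (G2 SlS rel Loc ok0 mv smf rs Ab)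
open Vale.Agent.P022K.FI (CS)
open Vale.Agent.P022K.Top (Si Uu)

section

variable {p : ℕ} [Fact p.Prime] {O F : Type} [CommRing O] [IsLocalRing O] [Algebra ℤ_[p] O]
  [Field F] {Z : Si p O} {C : Fr Z F} (D : Pd C)

/-- the actions at the places over `p` as linear maps over `O` -/
def al (k : Z.J) : Representation O (G2 p) D.M.Y where
  toFun g := (D.ak D.M k g).restrictScalars O
  map_one' := LinearMap.ext fun v => LinearMap.congr_fun (map_one (D.ak D.M k)) v
  map_mul' g h := LinearMap.ext fun v => LinearMap.congr_fun (map_mul (D.ak D.M k) g h) v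

/-- the vectors of weight `2 m + 2` and type `c` in the patched module -/
abbrev So (m : ℕ) (c : GL (Fin 2) (ZMod p) → O) (e : O) :
    Set ((Z.J → Fin (2 * m + 1)) → D.M.Y) := Sol (al D) m c e

/-- `r` is the local representation of the point `x` at the place `k` -/
def Rx {V : Type} [CommRing V] [Algebra O V] (x : D.R →ₐ[O] V) (k : Z.J) {E : Qb →+* CS p}
    (h : Ab E (C.P (C.u k))) (r : WB.Iso (CS p) → M2 V) : Prop :=
  ∀ σ, r σ = (D.fm (C.u k) ⟨rs E σ, h.mem σ⟩).map x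

end

/-- **row TS**: unbounded solutions at a point give the local condition -/
def TS : Prop := ∀ (p : ℕ) [Fact p.Prime] (O F V : Type) [CommRing O] [IsDomain O]
  [IsDiscreteValuationRing O] [Cf O] [CharZero O] [Algebra ℤ_[p] O] [Field F] [Finite F]
  [CharP F p] [Algebra O F] [CommRing V] [IsDomain V] [Algebra O V] [Module.Finite O V]
  [FaithfulSMul O V] (Z : Si p O) (C : Fr Z F) (D : Pd C) (m : ℕ)
  (c : GL (Fin 2) (ZMod p) → O) (e : O) (x : D.R →ₐ[O] V) (k : Z.J) (E : Qb →+* CS p)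
  (h : Ab E (C.P (C.u k))) (r : WB.Iso (CS p) →* M2 V), Z.Ok → Z.Wn → C.Ok →
  (p = 2 → ∀ P, Ov p P → ¬ Uu P C.rb) → D.Ok → 0 < m → (∀ u ∈ D.I0, x u = 0) → Rx D x k h r →
  (∀ N : ℕ, ∃ y ∈ So D m c e ∩ Kf _ D.M.Y (RingHom.ker x), p ^ N • y ≠ 0) →
    Loc (ok0 p) (mv r) (smf (algebraMap O V)) (rel m 1 (some c) e)

/-- **row TT**: the local conditions at a point of the component give unbounded solutions -/
def TT : Prop := ∀ (p : ℕ) [Fact p.Prime] (O F V : Type) [CommRing O] [IsDomain O]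
  [IsDiscreteValuationRing O] [Cf O] [CharZero O] [Algebra ℤ_[p] O] [Field F] [Finite F]
  [CharP F p] [Algebra O F] [CommRing V] [IsDomain V] [Algebra O V] [Module.Finite O V]
  [FaithfulSMul O V] (Z : Si p O) (C : Fr Z F) (D : Pd C) (η : MonoidAlgebra O Z.G)
  (J : ∀ t, Ideal (PS O (C.τ t))) (m : ℕ) (c : GL (Fin 2) (ZMod p) → O) (e : O)
  (x : D.R →ₐ[O] V) (E : Z.J → Qb →+* CS p) (h : ∀ k, Ab (E k) (C.P (C.u k)))
  (r : Z.J → WB.Iso (CS p) →* M2 V), Z.Ok → Z.Wn → C.Ok →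
  (p = 2 → ∀ P, Ov p P → ¬ Uu P C.rb) → D.Ok → Z.Ty η → D.Sup (D.th η) J →
  (∀ u ∈ D.J0 J, x u = 0) → (∀ k, Rx D x k (h k) (r k)) →
  (∀ k, Loc (ok0 p) (mv (r k)) (smf (algebraMap O V)) (rel m 1 (some c) e)) →
    ∀ N : ℕ, ∃ y ∈ So D m c e ∩ Kf _ D.M.Y (RingHom.ker x),
      (∀ i, ∃ v, D.th η v = y i) ∧ p ^ N • y ≠ 0

end Vale.Agent.P022K.LF
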