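import Vale.Agent.P022K.LF.Nza
import Vale.Agent.P022K.LF.Nzs
import Vale.Agent.P022K.LF.St2

/-!
# P022K, block LF: vectors of a given type exist in the patched module, in some weight
-/

set_option linter.all false

noncomputable section

namespace Vale.Agent.P022K.LF

open IsLocalRing
open Vale.Agent.P022K.RT
open Vale.Agent.P022K.WB (G2 SlO_map)
open Vale.Agent.P022K.Top (Si cy)
open Vale.Agent.P022D.L2b (M2)

variable {p : ℕ} [Fact p.Prime] {O F : Type} [CommRing O] [IsDomain O]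
  [IsDiscreteValuationRing O] [Algebra ℤ_[p] O] [Field F] {Z : Si p O} {C : Fr Z F} {D : Pd C}

/-- a pro-automorphic system gives a vector of level zero -/
theorem ym_ne [CharZero O] (hZ : Z.Ok) {t t' : Z.H → O} (h : ∀ s, t' s - t s ∈ maximalIdeal O)
    {η : MonoidAlgebra O Z.G} (pro : Z.Pro η t') : Ym Z t ≠ ⊥ := fun e => by
  obtain ⟨z, ⟨z1, z2⟩, z3⟩ := pro 1 one_ne_zero
  have : z ∈ Ym Z t := ⟨z2, eg_mt hZ h z1⟩
  rw [e, Submodule.mem_bot] at this
  exact z3 (by rw [this, map_zero, smul_zero])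

variable [Algebra O F]

/-- a non-trivial annihilator statement: the level zero is not zero if `κ` has a non-zero value -/
theorem ym_ne' {z : Ym Z C.t} (h : D.κ z ≠ 0) : Ym Z C.t ≠ ⊥ := fun e => h (by
  rw [show z = 0 from Subtype.ext ((Submodule.eq_bot_iff _).1 e _ z.2), map_zero])

/-- **vectors of type `c` in the patched module**, fixed by the patching variables -/
theorem nzq' (h : D.Ok) (hZ : Z.Ok) (hp : (p : O) ∈ maximalIdeal O) (hp0 : (p : O) ≠ 0)
    (hne : Ym Z C.t ≠ ⊥) {c : GL (Fin 2) (ZMod p) → O} {e : O} (hc : Idc c e)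
    {α : Z.J → Representation O (G2 p) D.M.Y} (hα : ∀ k g v, α k g v = D.ak D.M k g v) :
    ∃ m, 0 < m ∧ Uf O id ((Sol α m c e : Set ((Z.J → Fin (2 * m + 1)) → D.M.Y)) ∩
      {y | ∀ i z, D.M.a (1, z) (y i) = y i}) := by
  obtain ⟨a, a1, a2, a3, a4⟩ := nzs p O Z C.t hZ hp hp0
  obtain ⟨m, hm, u⟩ := nza p O Z.J (Ym Z C.t) a c e hp hp0 hc a2 a3 (a4 hne)
  refine ⟨m, hm, fun o ho => ?_⟩
  obtain ⟨z, z1, i, z2⟩ := u o ho
  refine ⟨fun i => D.κ (z i), ⟨⟨fun _ => trivial, fun k _ b => ?_⟩, fun i w => h.k_fix _ w⟩, i,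
    fun e => z2 (h.kinj ?_)⟩
  · have := SlO_map (ρ' := α k) (z1.2 k trivial b) D.κ fun g j => by
      obtain ⟨z', e1, e2⟩ := h.k_ak k g (z (Function.update b k j))
      rw [hα, ← e2]
      exact congrArg D.κ (Subtype.ext ((a1 k g _).trans e1.symm))
    exact this
  · rw [map_smul, map_zero]
    exact e

/-- **vectors of type `c` in the patched module** -/
theorem nzq (h : D.Ok) (hZ : Z.Ok) (hp : (p : O) ∈ maximalIdeal O) (hp0 : (p : O) ≠ 0)
    (hne : Ym Z C.t ≠ ⊥) {c : GL (Fin 2) (ZMod p) → O} {e : O} (hc : Idc c e)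
    {α : Z.J → Representation O (G2 p) D.M.Y} (hα : ∀ k g v, α k g v = D.ak D.M k g v) :
    ∃ m, 0 < m ∧ Uf O id (Sol α m c e : Set ((Z.J → Fin (2 * m + 1)) → D.M.Y)) := by
  obtain ⟨m, hm, u⟩ := nzq' h hZ hp hp0 hne hc hα
  exact ⟨m, hm, fun o ho => by
    obtain ⟨z, z1, z2⟩ := u o ho
    exact ⟨z, z1.1, z2⟩⟩

/-- the seed gives a vector of level zero -/
theorem ym_seed [CharZero O] (hZ : Z.Ok) (hs : ∀ x, algebraMap O F (C.s x) = x)
    {ρ : Z.H →* M2 O} (hρ : LiftC C.r C.s (fun s => cy p O s.1) ρ) {η : MonoidAlgebra O Z.G}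
    (pro : Z.Pro η fun s => (ρ s).trace) : Ym Z C.t ≠ ⊥ :=
  ym_ne hZ (fun s => by
    have := fun i => (ker_res hs).2 (hρ.red s i i)
    rw [← ker_res hs, Fr.t, map_sub, hs, Matrix.trace_fin_two, Matrix.trace_fin_two, map_add]
    simp only [Algebra.algebraMap_self, RingHom.id_apply, map_sub, hs, sub_eq_zero] at this
    rw [this, this, sub_self]) pro

/-- **NZP** -/
theorem nzp [CharZero O] [CharP F p] (hZ : Z.Ok) (hC : C.Ok) (hD : D.Ok) (hne : Ym Z C.t ≠ ⊥)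
    {c : GL (Fin 2) (ZMod p) → O} {e : O} (hc : Idc c e) : ∃ m, 0 < m ∧ Uf O id (So D m c e) :=
  nzq hD hZ ((ker_res hC.sec).1 (by rw [map_natCast, CharP.cast_eq_zero]))
    (Nat.cast_ne_zero.2 (Fact.out : p.Prime).ne_zero) hne hc fun _ _ _ => rfl

end Vale.Agent.P022K.LF
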