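import Vale.Agent.P022K.RT.St3
import Vale.Agent.P022K.WB.Pat

/-!
# P022K, block LF: lifts with prescribed weight and type at `p`. Rows of pure algebra.
-/

set_option linter.all false

noncomputable section

namespace Vale.Agent.P022K.LF

open IsLocalRing MvPowerSeries
open Vale.Agent.P022D.Core (PS)
open Vale.Agent.P022K.PL (Cf)
open Vale.Agent.P022K.RT
open Vale.Agent.P022K.WB (G2 Kn SlS rel)
open Vale.Agent.P022K.Top (Si)

section

variable {p : ℕ} [Fact p.Prime] {O : Type} [CommRing O]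

/-- the admissible types: idempotent up to `e`, unit on the centre -/
structure Idc (c : GL (Fin 2) (ZMod p) → O) (e : O) : Prop where
  ne : e ≠ 0
  conv : ∀ g, ∑ h, c h * c (h⁻¹ * g) = e * c g
  unit : IsUnit (∑ z : (ZMod p)ˣ, c (Matrix.GeneralLinearGroup.scalar (Fin 2) z))

variable (p) in
/-- the principal congruence subgroups -/
def KJ (J : Type) (n : ℕ) : Subgroup (J → G2 p) := Subgroup.pi Set.univ fun _ => Kn p n

variable (p) in
/-- the same with the centre -/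
def NJ (J : Type) (n : ℕ) : Subgroup (J → G2 p) :=
  Subgroup.pi Set.univ fun _ => Kn p n ⊔ Subgroup.center (G2 p)

variable {J M : Type} [DecidableEq J] [AddCommGroup M] [Module O M]

/-- the action at one place -/
def pl (a : (J → G2 p) →* Module.End O M) (k : J) : Representation O (G2 p) M :=
  a.comp (MonoidHom.mulSingle (fun _ => G2 p) k)

variable [Algebra ℤ_[p] O]

/-- the vectors of weight `2 m + 2`, level `p`, type `c` at all places -/
def Sol (σ : J → Representation O (G2 p) M) (m : ℕ) (c : GL (Fin 2) (ZMod p) → O) (e : O) :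
    Submodule O ((J → Fin (2 * m + 1)) → M) :=
  SlS id σ (fun _ => rel m 1 (some c) e) ⊤ Set.univ

end

section

variable (O : Type) {R M I : Type} [CommRing O] [CommRing R] [AddCommGroup M] [Module O M]
  [Module R M]

/-- `θ` has unbounded exponent on a set of families -/
def Uf (θ : M → M) (S : Set (I → M)) : Prop := ∀ o : O, o ≠ 0 → ∃ z ∈ S, ∃ i, o • θ (z i) ≠ 0

/-- the families which are killed by an ideal -/
def Kf (I M : Type) [AddCommGroup M] [Module R M] (𝔮 : Ideal R) : Set (I → M) :=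
  {z | ∀ i, z i ∈ Kl M 𝔮}

/-- the saturated annihilator -/
def Bs [IsDomain O] [SMulCommClass O R M] (θ : M → M) (S : Set (I → M)) : Ideal R where
  carrier := {u | ∃ o : O, o ≠ 0 ∧ ∀ z ∈ S, ∀ i, o • u • θ (z i) = 0}
  add_mem' := by
    rintro a b ⟨o, h, k⟩ ⟨o', h', k'⟩
    refine ⟨o * o', mul_ne_zero h h', fun z hz i => ?_⟩
    rw [add_smul, smul_add, mul_smul o o' (b • _), k' z hz, mul_comm, mul_smul, k z hz, smul_zero,
      smul_zero, add_zero]
  zero_mem' := ⟨1, one_ne_zero, fun z _ i => by rw [zero_smul, smul_zero]⟩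
  smul_mem' := by
    rintro a b ⟨o, h, k⟩
    exact ⟨o, h, fun z hz i => by rw [smul_eq_mul, mul_smul, smul_comm, k z hz, smul_zero]⟩

end

/-- **row NZA**: vectors of type `c` exist in some weight -/
def NZA : Prop := ∀ (p : ℕ) [Fact p.Prime] (O J M : Type) [CommRing O] [IsDomain O]
  [IsDiscreteValuationRing O] [Algebra ℤ_[p] O] [Fintype J] [DecidableEq J] [AddCommGroup M]
  [Module O M] (a : (J → G2 p) →* Module.End O M) (c : GL (Fin 2) (ZMod p) → O) (e : O),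
  (p : O) ∈ maximalIdeal O → (p : O) ≠ 0 → Idc c e →
  (∀ z ∈ Subgroup.center (J → G2 p), a z = 1) →
  (∀ n, 0 < n → Tl.DT p (a.comp (KJ p J 1).subtype) ((NJ p J n).subgroupOf (KJ p J 1))) →
  (∃ w : M, w ≠ 0 ∧ p • w = 0 ∧ ∀ g ∈ KJ p J 1, a g w = w) →
    ∃ m, 0 < m ∧ Uf O id (Sol (pl a) m c e : Set ((J → Fin (2 * m + 1)) → M))

/-- **row NZS**: the hypotheses of NZA hold on a site -/
def NZS : Prop := ∀ (p : ℕ) [Fact p.Prime] (O : Type) [CommRing O] [IsDomain O]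
  [IsDiscreteValuationRing O] [Algebra ℤ_[p] O] (Z : Si p O) (t : Z.H → O), Z.Ok →
  (p : O) ∈ maximalIdeal O → (p : O) ≠ 0 →
    ∃ a : (Z.J → G2 p) →* Module.End O (Ym Z t),
      (∀ k g v, (pl a k g v : Z.M) = Z.ap k g v) ∧
      (∀ z ∈ Subgroup.center (Z.J → G2 p), a z = 1) ∧
      (∀ n, 0 < n → Tl.DT p (a.comp (KJ p Z.J 1).subtype)
        ((NJ p Z.J n).subgroupOf (KJ p Z.J 1))) ∧
      (Ym Z t ≠ ⊥ → ∃ w : Ym Z t, w ≠ 0 ∧ p • w = 0 ∧ ∀ g ∈ KJ p Z.J 1, a g w = w)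

/-- **row HMF**: the support of the vectors of given weight and type in a patched module -/
def HMF : Prop := ∀ (p : ℕ) [Fact p.Prime] (O σ J M : Type) [CommRing O] [IsDomain O]
  [IsDiscreteValuationRing O] [Cf O] [Algebra ℤ_[p] O] [Fintype σ] [Fintype J] [DecidableEq J]
  [AddCommGroup M] [Module O M] [Module (PS O σ) M] [IsScalarTower O (PS O σ) M] (r b m : ℕ)
  (a : (J → G2 p) × Zr r →* Module.End (PS O σ) M) (α : J → Representation O (G2 p) M)
  (qa qb : Fin r → PS O σ) (c : GL (Fin 2) (ZMod p) → O) (e : O) (θ : Module.End (PS O σ) M),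
  (p : O) ∈ maximalIdeal O → (p : O) ≠ 0 → Idc c e →
  (∀ k g v, α k g v = a (Pi.mulSingle k g, 1) v) →
  Cof O (NP (NG p 0 J) p r)
    (a.comp (((Kn p (0 + 2)).subtype.compLeft J).prodMap (MonoidHom.id _))) b →
  (∀ s, qa s ∈ maximalIdeal _ ∧ qb s ∈ maximalIdeal _) →
  (∀ s, (a (1, zg s) - 1) ^ 2 - qa s • (a (1, zg s) - 1) + qb s • 1 = 0) →
  (∀ x, Commute θ (a x)) →
    (Uf O θ (Sol α m c e : Set ((J → Fin (2 * m + 1)) → M)) → ((r + 1 : ℕ) : WithBot ℕ∞) ≤
      ringKrullDim (PS O σ ⧸ Bs (R := PS O σ) O θ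
        (Sol α m c e : Set ((J → Fin (2 * m + 1)) → M)))) ∧
    (Prj O a θ → ∀ 𝔮 : Ideal (PS O σ), 𝔮.IsPrime →
      Bs O θ (Sol α m c e : Set ((J → Fin (2 * m + 1)) → M)) ≤ 𝔮 →
      ((∀ o, C o ∈ 𝔮 → o = 0) →
        Uf O θ ((Sol α m c e : Set ((J → Fin (2 * m + 1)) → M)) ∩ Kf _ M 𝔮)) ∧
      ((∀ s, ∃ o o', qa s - C o ∈ 𝔮 ∧ qb s - C o' ∈ 𝔮) → Module.Finite O (PS O σ ⧸ 𝔮)))

end Vale.Agent.P022K.LF
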