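import Vale.Agent.P022K.LF.St2
import Vale.Agent.P022K.RT.Mls
import Vale.Agent.P022K.RT.Trq

/-!
# P022K, block LF: the local conditions at a point give unbounded solutions
-/

set_option linter.all false

noncomputable section

namespace Vale.Agent.P022K.LF

open Vale.Agent.P022K.RT
open Vale.Agent.P022K.FI (CS)

theorem tt_ofB (hG : GIR) (hG2 : GIR2) (rw : ∀ (p : ℕ) [Fact p.Prime], WB.R1.Rows p (CS p))
    (hS : ∀ (p : ℕ) [Fact p.Prime], WB.SURJ p (CS p))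
    (hF : ∀ (p : ℕ) [Fact p.Prime], WB.PHI p (CS p)) : TT := by
  intro p _ O F V _ _ _ _ _ _ _ _ _ _ _ _ _ _ _ Z C D η J m c e x E h r hZ wn hC hu hD ty sp hx hr
    loc N
  let L : ∀ k, Z.Pl k := fun k => .mk' (h k) (hC.u k).2 (C.le _)
  obtain ⟨y, y1, y2⟩ := hD.trq hZ hC (rw p) (hS p) (hF p) L (fun _ => rfl)
    (fun j => (wn j).inj hZ.cc hC.rt (L j) fun e => hu e _ (L j).ovp) (hD.th_ak ty.1)
    (fun k m => (Pd.com_thY D.M ty.1 fun _ _ => (D.M.com _ m _).symm).symm) sp.le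
    (fun k => (sp.good hC _).1) (sp.irr hG hG2 hC hu)
    (fun 𝔮 a b c o ho => (sp.unb 𝔮 a b c ∅ (fun _ e => e.elim) o ho).imp fun _ k => ⟨k.1.1, k.2⟩)
    x hx hr loc N
  exact ⟨y, ⟨⟨fun _ => trivial, fun k _ a q hq => Eq.trans (Finsupp.sum_congr fun _ _ =>
    (algebraMap_smul D.R _ _).symm) (y1.2 k trivial a q hq)⟩,
    fun i => WB.R1.mem_Kl.1 (y1.1 i).2⟩, fun i => (y1.1 i).1, y2⟩

end Vale.Agent.P022K.LF
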