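import Vale.Agent.P022K.LF.Core
import Vale.Agent.P022K.LF.Nza
import Vale.Agent.P022K.LF.Nzs
import Vale.Agent.P022K.RT.Mls
import Vale.Agent.P022K.RT.LfSt

/-!
# P022K, block LF: the row LFS from the rows
-/

set_option linter.all false

noncomputable section

namespace Vale.Agent.P022K.LF

open IsLocalRing
open scoped Pointwise
open Vale.Agent.P022
open Vale.Agent.P022D.L2b (M2)
open Vale.Agent.P022D.Core (PS)
open Vale.Agent.P022D.W (dec)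
open Vale.Agent.P022E.GW (Ov)
open Vale.Agent.P022K.PL (Cf)
open Vale.Agent.P022K.GW (Id)
open Vale.Agent.P022K.RT
open Vale.Agent.P022K.WB (SlO_map LocR ok0 rs Ab rs_comp exists_ab SURJ PHI)
open Vale.Agent.P022K.FI (CS)
open Vale.Agent.P022K.Top (Si Uu cy)

section

variable {p : ℕ} [Fact p.Prime] {O F : Type} [CommRing O] [IsDomain O]
  [IsDiscreteValuationRing O] [CharZero O] [Algebra ℤ_[p] O] [Field F] [Algebra O F] [CharP F p]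
  {Z : Si p O} {C : Fr Z F} {D : Pd C}

/-- the weight -/
theorem ex_wt (hZ : Z.Ok) (hC : C.Ok) (hD : D.Ok) (ne : Ym Z C.t ≠ ⊥)
    {c : GL (Fin 2) (ZMod p) → O} {e : O} (hc : Idc c e) :
    ∃ m, 0 < m ∧ Uf O id (So D m c e) := by
  have h0 : (p : O) ≠ 0 := Nat.cast_ne_zero.2 (Fact.out : p.Prime).ne_zero
  obtain ⟨a, a1, a2, a3, a4⟩ := nzs p O Z C.t hZ hC.p_mem h0
  obtain ⟨m, m1, m2⟩ := nza p O Z.J _ a c e hC.p_mem h0 hc a2 a3 (a4 ne)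
  refine ⟨m, m1, fun o ho => ?_⟩
  obtain ⟨z, z1, i, z2⟩ := m2 o ho
  refine ⟨fun i => D.κ (z i), ⟨fun _ => trivial, fun k _ b => SlO_map (z1.2 k trivial b) D.κ
    fun g i => ?_⟩, i, fun e => z2 (hD.kinj ((map_smul _ _ _).trans (e.trans (map_zero _).symm)))⟩
  obtain ⟨z', e1, e2⟩ := hD.k_ak k g (z (Function.update b k i))
  exact (congrArg D.κ (Subtype.ext ((a1 k g _).trans e1.symm))).trans e2

/-- all embeddings -/
theorem locR_all {W : Type} [CommRing W] [Algebra ℤ_[p] W] {r : GQ →* M2 W} {m : ℕ}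
    {c : Option (GL (Fin 2) (ZMod p) → W)} {e₀ : Qb →+* CS p} {P₀ : Id} (h₀ : Ab e₀ P₀)
    (H : LocR (ok0 p) (r.comp (rs e₀)) m c) (e : Qb →+* CS p) :
    LocR (ok0 p) (r.comp (rs e)) m c := by
  obtain ⟨g, hg⟩ : ∃ g : GQ, e = e₀.comp g.toRingEquiv.toRingHom := by
    letI := e₀.toAlgebra
    haveI : IsScalarTower ℚ Qb (CS p) := .of_algebraMap_eq fun q => (map_ratCast e₀ q).symm
    exact ⟨AlgHom.restrictNormal' e.toRatAlgHom Qb, RingHom.ext fun x =>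
      (AlgHom.restrictNormal_commutes e.toRatAlgHom Qb x).symm⟩
  exact H.conj (r g) (fun s => by
    rw [MonoidHom.comp_apply, MonoidHom.comp_apply, hg, rs_comp, ← map_mul, ← map_mul]
    congr 1
    group) ⟨0, (r g⁻¹).det, by
      rw [← Matrix.det_mul, ← map_mul, mul_inv_cancel, map_one, Matrix.det_one, pow_zero]⟩

end

/-- the middle layer -/
def MID : Prop := ∀ (p : ℕ) [Fact p.Prime] (O F : Type) [CommRing O] [IsDomain O]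
  [IsDiscreteValuationRing O] [Cf O] [CharZero O] [Algebra ℤ_[p] O] [Field F] [Finite F]
  [CharP F p] [Algebra O F] (Z : Si p O) (ρ : GQ →* GL (Fin 2) F) (r₀ : Z.H →* M2 O) (P : ℕ → Id)
  (V : ∀ l, dec (P l) →* M2 O) (C : Fr Z F) (D : Pd C) (φ₀ : D.R →ₐ[O] O), Z.Ok →
  Qd Z ρ C.s r₀ P V → C.rb = ρ.comp Z.H.subtype → C.Ok → D.Ok → D.Gp φ₀ r₀ →
  ∃ (L₀ : Sy.Lc ((mr ρ).comp (dec (P p)).subtype) C.s fun g => cy p O g.1)
    (δ : ∀ t, Ov p (C.P t) → (PS O (C.τ t) →ₐ[O] PS O L₀.τ)) (J : ∀ t, Ideal (PS O (C.τ t))),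
    (∀ t h, ∃ σ k γ', σ • P p = C.P t ∧
      Trn (C.I t) (C.f t) L₀.I L₀.f (cjH σ k) ((mr ρ σ).map C.s) γ' (δ t h)) ∧
    (∀ t, ¬ Ov p (C.P t) → ∃ h, Cm (C.I t) (φ₀.comp (D.io t)) (J t) h) ∧
    ∀ J₀ : Ideal (PS O L₀.τ), J₀.IsPrime → Sat J₀ → L₀.I ≤ J₀ →
      ((4 + 1 : ℕ) : WithBot ℕ∞) ≤ ringKrullDim (PS O L₀.τ ⧸ J₀) → Inv L₀.I J₀ L₀.f →
      (∀ 𝔮 : Ideal D.R, 𝔮.IsPrime → (∀ t h u, δ t h u ∈ J₀ → D.io t u ∈ 𝔮) →
        (∀ t, ¬ Ov p (C.P t) → ∀ u ∈ J t, D.io t u ∈ 𝔮) → D.J1 ≤ 𝔮 → D.L0 𝔮 →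
        Module.Finite O (D.R ⧸ 𝔮)) →
      ∃ (W : Type) (_ : CommRing W) (_ : IsDomain W) (_ : IsDiscreteValuationRing W) (_ : Cf W)
        (_ : CharZero W) (_ : Algebra O W) (r : GQ →* M2 W), Module.Finite O W ∧
        Function.Injective (algebraMap O W) ∧ Qo p Z.S ρ C.s P V r ∧
        ∃ x : PS O L₀.τ →ₐ[O] W, (∀ u ∈ J₀, x u = 0) ∧ ∀ y, (L₀.f y).map x = r y.1

theorem lfs_of (sys : SYS) (pkg : PKG fun _ _ _ _ _ Z => Z.Twi)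
    (hS : ∀ (p : ℕ) [Fact p.Prime], SURJ p (CS p)) (hF : ∀ (p : ℕ) [Fact p.Prime], PHI p (CS p))
    (mid : MID) (ts : TS) (tt : TT) : LFS := by
  intro p _ O F _ _ _ _ _ _ _ _ _ _ Z η ρ s r₀ P V c hZ ty tw wn hQ hu pro ⟨e, c1, c2, c3⟩
  obtain ⟨C, e1, rfl, hC, gd, -⟩ := sys p O F Z _ s ∅ hZ hQ.rb.hy (Set.injOn_empty _)
  obtain ⟨D, hD⟩ := pkg p O F Z C hZ hC tw
  rw [← e1] at hu
  have lt := e1 ▸ hQ.lt
  obtain ⟨φ₀, g0, u0, a0⟩ := hD.src hZ hC.sec lt.lift lt.unr ty.1 pro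
  obtain ⟨L₀, δ, J, m1, m2, m3⟩ := mid p O F Z ρ r₀ P V C D φ₀ hZ hQ e1 hC hD g0
  have : ∀ t, ∃ g, t ∉ Set.range C.u → Cm (C.I t) (φ₀.comp (D.io t)) (J t) g := fun t => by
    by_cases h : Ov p (C.P t)
    · exact ⟨0, fun k => (k ((hC.ov_iff hZ t).1 h)).elim⟩
    · exact (m2 t h).imp fun _ k _ => k
  choose g hg using this
  obtain ⟨J', j1, j2⟩ := hD.big hZ hC (fun k => gd.blk _ (hC.u k).1)
    (hC.gk hZ (hS p) (hF p) wn hu) (hD.prj ty) a0 hg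
  have j3 : ∀ t, ¬ Ov p (C.P t) → J' t = J t := fun t h => j1 t (mt (hC.ov_iff hZ t).2 h)
  obtain ⟨m, m0, uf⟩ := ex_wt hZ hC hD (fun k => by
    obtain ⟨v, ⟨-, v1⟩, v2⟩ := u0 1 one_ne_zero
    obtain ⟨z, rfl⟩ := (hD.krg v).2 v1
    exact v2 (by rw [show z = 0 from Subtype.ext ((Submodule.eq_bot_iff _).1 k _ z.2), map_zero,
      map_zero, smul_zero])) ⟨c1, c2, c3⟩
  obtain ⟨e₀, h₀⟩ := exists_ab (hQ.ov p hZ.mem)
  obtain ⟨J₀, k1, k2, k3, k4, k5, k6, k7⟩ := core hZ wn hC hu hD ts tt ty j2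
    (fun t h => j3 t h ▸ m2 t h) ⟨c1, c2, c3⟩ m0 uf h₀ L₀.uni δ fun t h => by
      obtain ⟨σ, k, γ', a⟩ := m1 t h
      exact ⟨σ, k, _, γ', a⟩
  obtain ⟨W, _, _, _, _, _, _, r, w1, w2, w3, x, x1, x2⟩ := m3 J₀ k1 k2 k3 k4 k5
    fun 𝔮 q1 q2 q3 => k6 𝔮 q1 q2 fun t h => j3 t h ▸ q3 t h
  letI : Algebra ℤ_[p] W := ((algebraMap O W).comp (algebraMap ℤ_[p] O)).toAlgebra
  haveI : IsScalarTower ℤ_[p] O W := .of_algebraMap_eq fun _ => rfl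
  have := (faithfulSMul_iff_algebraMap_injective O W).2 w2
  exact ⟨W, _, ‹_›, ‹_›, ‹_›, ‹_›, _, _, ‹_›, m, r, w1, w2, w3, locR_all h₀
    (locR_of w2 c1 (k7 W x _ x1 fun s => (x2 ⟨_, h₀.mem s⟩).symm))⟩

end Vale.Agent.P022K.LF
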